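import Vale.Agent.P034.Full.Params

/-!
The heavy classes: three rounds. Unions of few heavy certificates are covered by a pool of their
unions, except for the tests containing a small set with much link weight; that set yields a test
for the link weights, which is handled in the same way once more, and finally by single sets.
-/

namespace Vale.Agent.P034.Full

open Finset

namespace Bottom

variable {X : Type} [Fintype X] [DecidableEq X]

lemma half_pow_eq (n : ℕ) : (1 / 2 : ℝ) ^ n = ((2 : ℝ) ^ n)⁻¹ := by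
  rw [one_div, inv_pow]

lemma exp_neg_two_pow {E M K : ℕ} {Y : ℝ} (hY : Y ≤ 2 ^ E) (hEK : E + K ≤ 2 ^ M) :
    Real.exp (-(2 : ℝ) ^ M) * Y ≤ (1 / 2 : ℝ) ^ K := by
  have h2 : (2 : ℝ) ≤ Real.exp 1 := by linarith [Real.add_one_le_exp (1 : ℝ)]
  have h : (2 : ℝ) ^ (E + K) ≤ Real.exp ((2 : ℝ) ^ M) := by
    refine (pow_le_pow_left₀ (by norm_num) h2 _).trans ?_
    rw [← Real.exp_nat_mul, mul_one]
    exact Real.exp_le_exp.2 (by exact_mod_cast hEK)
  rw [half_pow_eq, Real.exp_neg, inv_mul_le_iff₀ (Real.exp_pos _), ← div_eq_mul_inv,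
    le_div_iff₀ (by positivity)]
  calc Y * (2 : ℝ) ^ K ≤ 2 ^ E * 2 ^ K := mul_le_mul_of_nonneg_right hY (by positivity)
    _ = 2 ^ (E + K) := (pow_add _ _ _).symm
    _ ≤ _ := h

lemma add_one_le_two_pow {x : ℝ} {u : ℕ} (h : x ≤ 2 ^ u) : x + 1 ≤ 2 ^ (u + 1) := by
  have h1 : (1 : ℝ) ≤ 2 ^ u := one_le_pow₀ (by norm_num)
  rw [pow_succ]
  linarith

/-- The crude bound for tests of at most `n` sets. -/
noncomputable def crude (T n : ℕ) : ℝ := ((n * T : ℕ) + 1 : ℝ) ^ T * 8 ^ T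

lemma crude_nonneg (T n : ℕ) : 0 ≤ crude T n := by unfold crude; positivity

lemma crude_le {T n k : ℕ} (hn : n ≤ 2 ^ k) : crude T n ≤ 2 ^ ((k + T + 4) * T) := by
  have h1 : ((n * T : ℕ) : ℝ) ≤ 2 ^ (k + T) := by
    rw [pow_add]
    exact_mod_cast Nat.mul_le_mul hn (Nat.lt_two_pow_self (n := T)).le
  have h2 := add_one_le_two_pow h1
  have h8 : (8 : ℝ) ^ T = (2 ^ 3 : ℝ) ^ T := by norm_num
  calc crude T n ≤ ((2 : ℝ) ^ (k + T + 1)) ^ T * 8 ^ T :=
        mul_le_mul_of_nonneg_right (pow_le_pow_left₀ (by positivity) h2 T) (by positivity)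
    _ = 2 ^ ((k + T + 4) * T) := by
        rw [h8, ← pow_mul, ← pow_mul, ← pow_add]; ring_nf

lemma test_bound {h : Finset X → ℝ} {g : Finset X → ℝ} {a r c δ w : ℝ} {T n : ℕ}
    {A P : Finset X} (hs : Sys g a T) (hc : 1 ≤ c) (hc3 : c ≤ 3) (h0 : ∀ S, 0 ≤ h S)
    (hT : ∀ S, h S ≠ 0 → S.card ≤ T) (hPhi : ∀ U, Phi h a U ≤ Phi g (c * a) U)
    (hr : 0 ≤ r) (hra : r ≤ a) (hδ : 0 < δ) (hA : IsTest h δ w n A) (hL : Light g a T A)
    (hP : P ⊆ A) : ∑ S : Finset X, h S * r ^ (S \ P).card ≤ crude T n := by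
  obtain ⟨⟨F, hF, hFδ, rfl⟩, -⟩ := hA
  have hcard : P.card ≤ n * T := by
    refine (card_le_card hP).trans ((card_biUnion_le_card_mul F id T fun S hS => ?_).trans
      (Nat.mul_le_mul_right T hF))
    exact hT S (ne_of_gt (lt_of_lt_of_le hδ (hFδ S hS)))
  calc _ ≤ ∑ T' ∈ layer T P, Phi h a T' := split_le h0 hr hra hT P
    _ ≤ ∑ T' ∈ layer T P, Phi g (c * a) T' := sum_le_sum fun U _ => hPhi U
    _ ≤ ((P.card : ℝ) + 1) ^ T * (2 * c) ^ T := hs.layer_sum hc hL hP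
    _ ≤ _ := by
        have : (P.card : ℝ) ≤ (n * T : ℕ) := Nat.cast_le.2 hcard
        exact mul_le_mul (pow_le_pow_left₀ (by positivity) (by linarith) T)
          (pow_le_pow_left₀ (by linarith) (by linarith) T) (pow_nonneg (by linarith) _)
          (by positivity)

/-- The weight `δ` of the heavy subsets of a set of size `b`. -/
noncomputable def thr (T b c : ℕ) : ℝ := (1 / 2 : ℝ) ^ c / ((b : ℝ) + 1) ^ T

lemma thr_pos (T b c : ℕ) : 0 < thr T b c := by unfold thr; positivity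

lemma thr_mul (T b c : ℕ) : ((b : ℝ) + 1) ^ T * thr T b c = (1 / 2 : ℝ) ^ c :=
  mul_div_cancel₀ _ (by positivity)

lemma backup_le {T b c k : ℕ} (hb : b ≤ 2 ^ k) :
    (crude T b / thr T b c + 1) ^ b ≤ (2 : ℝ) ^ (((2 * k + T + 5) * T + c + 1) * b) := by
  rw [pow_mul]
  refine pow_le_pow_left₀ (add_nonneg (div_nonneg (crude_nonneg T b) (thr_pos T b c).le)
    zero_le_one) (add_one_le_two_pow ?_) b
  have h1 : ((b : ℝ) + 1) ^ T ≤ 2 ^ ((k + 1) * T) := by
    rw [pow_mul]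
    exact pow_le_pow_left₀ (by positivity) (add_one_le_two_pow (by exact_mod_cast hb)) T
  calc crude T b / thr T b c = crude T b * ((b : ℝ) + 1) ^ T * 2 ^ c := by
        rw [thr, half_pow_eq]; field_simp
    _ ≤ 2 ^ ((k + T + 4) * T) * 2 ^ ((k + 1) * T) * 2 ^ c := by
        gcongr
        exact crude_le hb
    _ = _ := by rw [← pow_add, ← pow_add]; ring_nf

/-- Positive, nonempty links of bounded size. -/
noncomputable def link (g : Finset X → ℝ) (d : ℝ) (T : ℕ) (U : Finset X) : ℝ :=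
  if U.Nonempty ∧ U.card ≤ T then Phi g d U else 0

lemma link_nonneg {g : Finset X → ℝ} {d : ℝ} {T : ℕ} (hg : ∀ S, 0 ≤ g S) (hd : 0 ≤ d)
    (U : Finset X) : 0 ≤ link g d T U := by
  unfold link; split_ifs; exacts [Phi_nonneg hg hd U, le_rfl]

lemma link_le {g : Finset X → ℝ} {d : ℝ} {T : ℕ} (hg : ∀ S, 0 ≤ g S) (hd : 0 ≤ d)
    (U : Finset X) : link g d T U ≤ Phi g d U := by
  unfold link; split_ifs; exacts [le_rfl, Phi_nonneg hg hd U]

lemma link_card {g : Finset X → ℝ} {d : ℝ} {T : ℕ} (U : Finset X) (h : link g d T U ≠ 0) :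
    U.card ≤ T := by
  by_contra hc
  exact h (if_neg fun hh => hc hh.2)

lemma Phi_link_le {g : Finset X → ℝ} {d e : ℝ} {T : ℕ} (hg : ∀ S, 0 ≤ g S) (hd : 0 ≤ d)
    (he : 0 ≤ e) (U : Finset X) : Phi (link g d T) e U ≤ Phi g (e + d) U :=
  (Phi_mono he (link_le hg hd) U).trans_eq (Phi_comp g d e U)

lemma sum_link {g : Finset X → ℝ} {d : ℝ} {T : ℕ} (P : Finset X) :
    ∑ U ∈ layer T P, link g d T U = ∑ U ∈ layer T P, Phi g d U - Phi g d ∅ := by
  have h0 : (∅ : Finset X) ∈ layer T P := mem_layer.2 ⟨empty_subset _, by simp⟩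
  rw [← add_sum_erase _ _ h0, ← add_sum_erase _ (fun U => Phi g d U) h0]
  rw [sum_congr (s₁ := (layer T P).erase ∅) rfl fun U hU => (?_ : link g d T U = Phi g d U)]
  · simp [link]
  · obtain ⟨hne, hU⟩ := mem_erase.1 hU
    exact if_pos ⟨nonempty_iff_ne_empty.2 hne, (mem_layer.1 hU).2⟩

omit [Fintype X] in
/-- The union of few heavy sets inside `H` carrying half of the mass. -/
lemma heavy_test {g : Finset X → ℝ} {L : ℕ} (hg : ∀ S, 0 ≤ g S) {H : Finset X}
    (hH : 1 / 2 ≤ ∑ S ∈ H.powerset, (if (1 / 2 : ℝ) ^ L < g S then g S else 0)) :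
    ∃ A, A ⊆ H ∧ IsTest (fun S => if (1 / 2 : ℝ) ^ L < g S then g S else 0)
      ((1 / 2 : ℝ) ^ L) (1 / 2) (2 ^ L) A := by
  set θ : ℝ := (1 / 2 : ℝ) ^ L with hθ
  set h : Finset X → ℝ := fun S => if θ < g S then g S else 0 with hh
  have h0 : ∀ S, 0 ≤ h S := fun S => by
    simp only [hh]; split_ifs; exacts [hg S, le_rfl]
  set F := H.powerset.filter (fun S => θ < g S) with hF
  obtain ⟨F', hsub, hcard, hmass⟩ :
      ∃ F' ⊆ F, F'.card ≤ 2 ^ L ∧ 1 / 2 ≤ ∑ S ∈ F', h S := by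
    by_cases hc : F.card ≤ 2 ^ L
    · refine ⟨F, subset_rfl, hc, hH.trans (le_of_eq ?_)⟩
      rw [hF, sum_filter]
      exact sum_congr rfl fun S _ => by simp only [hh]; split_ifs <;> rfl
    · obtain ⟨F', hsub, hcard⟩ := exists_subset_card_eq (not_le.1 hc).le
      refine ⟨F', hsub, hcard.le, ?_⟩
      calc (1 / 2 : ℝ) ≤ ((2 ^ L : ℕ) : ℝ) * θ := by
            rw [hθ, Nat.cast_pow, ← mul_pow]; norm_num
        _ ≤ _ := by
            rw [← hcard, ← nsmul_eq_mul, ← sum_const]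
            refine sum_le_sum fun S hS => ?_
            have hlt := (mem_filter.1 (hsub hS)).2
            simp only [hh, if_pos hlt]; exact hlt.le
  refine ⟨F'.biUnion id, biUnion_subset.2 fun S hS => mem_powerset.1 (mem_filter.1 (hsub hS)).1,
    ⟨F', hcard, fun S hS => ?_, rfl⟩, ?_⟩
  · have hlt := (mem_filter.1 (hsub hS)).2
    simp only [hh, if_pos hlt]; exact hlt.le
  · refine hmass.trans (sum_le_sum_of_subset_of_nonneg (fun S hS => ?_) fun S _ _ => h0 S)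
    exact mem_powerset.2 fun x hx => mem_biUnion.2 ⟨S, hS, hx⟩

lemma expo_bounds {T : ℕ} (hT : 1 ≤ T) :
    64 ≤ expo T ∧ 8 * T + 64 ≤ 2 ^ (expo T + 1) ∧ expo T ≤ 8 * (T * T) + 36 * T + 80 := by
  have e : expo T = 8 * (T * T) + 36 * T + 80 := by unfold expo; ring
  refine ⟨by omega, ?_, e.le⟩
  have h1 : expo T < 2 ^ expo T := Nat.lt_two_pow_self
  rw [pow_succ]
  omega

lemma mul_le_two_pow {a b u v : ℕ} (ha : a ≤ 2 ^ u) (hb : b ≤ 2 ^ v) : a * b ≤ 2 ^ (u + v) := by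
  rw [pow_add]; exact Nat.mul_le_mul ha hb

lemma exp_le_lin (x : ℕ) : x ≤ 2 ^ x := Nat.lt_two_pow_self.le

lemma add_le_two_pow {a b u : ℕ} (ha : a ≤ 2 ^ u) (hb : b ≤ 2 ^ u) : a + b ≤ 2 ^ (u + 1) := by
  rw [pow_succ]; omega

/-- Round 1: the backup fits below the pool. -/
lemma num1 {T : ℕ} (hT : 1 ≤ T) :
    ((lev T 0 + T + 4) * T + lev T 0 + 1) * 2 ^ lev T 0 + (T + 12) ≤
      2 ^ (4 * lev T 0 + 8 * T + 64) := by
  generalize lev T 0 = L
  have h1 : (L + T + 4) * T ≤ 2 ^ (L + T + 4 + T) := mul_le_two_pow (exp_le_lin _) (exp_le_lin _)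
  have h2 : L + 1 ≤ 2 ^ (L + T + 4 + T) :=
    (exp_le_lin _).trans (Nat.pow_le_pow_right (by norm_num) (by omega))
  have h3 := mul_le_two_pow (add_le_two_pow h1 h2) (le_refl (2 ^ L))
  have h4 : T + 12 ≤ 2 ^ (L + T + 4 + T + 1 + L + 8) :=
    (exp_le_lin _).trans (Nat.pow_le_pow_right (by norm_num) (by omega))
  have h5 := add_le_two_pow
    (h3.trans (Nat.pow_le_pow_right (by norm_num) (Nat.le_add_right _ 8))) h4
  rw [← add_assoc] at h5
  exact h5.trans (Nat.pow_le_pow_right (by norm_num) (by omega))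

lemma q1_le {T : ℕ} (hT : 1 ≤ T) :
    (4 * lev T 0 + 8 * T + 64) * T ≤ 2 ^ (expo T + 3 + T) := by
  refine mul_le_two_pow ?_ (exp_le_lin T)
  have := (expo_bounds hT).2.1
  have e : lev T 0 = 2 ^ expo T := rfl
  rw [pow_succ] at this
  rw [e, pow_add]
  omega

/-- Round 2: the backup fits below the pool. -/
lemma num2 {T b : ℕ} (hT : 1 ≤ T) (hb : b ≤ 2 ^ (expo T + 3 + T)) :
    ((2 * (expo T + 3 + T) + T + 5) * T + 5 + 1) * b + (T + 12) ≤
      2 ^ (3 * expo T + 8 * T + 64) := by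
  revert hb
  generalize expo T = e
  intro hb
  set k := e + 3 + T
  have h1 : (2 * k + T + 5) * T ≤ 2 ^ (2 * k + T + 5 + T) :=
    mul_le_two_pow (exp_le_lin _) (exp_le_lin _)
  have h2 : 6 ≤ 2 ^ (2 * k + T + 5 + T) :=
    le_trans (by norm_num) (Nat.pow_le_pow_right (by norm_num) (show 3 ≤ _ by omega))
  have h3 := mul_le_two_pow (add_le_two_pow h1 h2) hb
  have h4 : T + 12 ≤ 2 ^ (2 * k + T + 5 + T + 1 + k + 8) :=
    (exp_le_lin _).trans (Nat.pow_le_pow_right (by norm_num) (by omega))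
  have h5 := add_le_two_pow
    (h3.trans (Nat.pow_le_pow_right (by norm_num) (Nat.le_add_right _ 8))) h4
  rw [← add_assoc] at h5
  calc _ ≤ _ := by simpa [add_assoc] using h5
    _ ≤ _ := Nat.pow_le_pow_right (by norm_num) (by omega)

lemma q2_le {T : ℕ} (hT : 1 ≤ T) : (3 * expo T + 8 * T + 64) * T ≤ 2 ^ (3 * T + 9) := by
  have he := (expo_bounds hT).2.2
  have h1 : T * T ≤ 2 ^ (T + T) := mul_le_two_pow (exp_le_lin _) (exp_le_lin _)
  have h2 : T ≤ T * T := Nat.le_mul_of_pos_left T hT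
  have h3 : 3 * expo T + 8 * T + 64 ≤ 2 ^ (2 * T + 9) := by
    rw [pow_add, two_mul]
    omega
  refine (mul_le_two_pow h3 (exp_le_lin T)).trans (Nat.pow_le_pow_right (by norm_num) (by omega))

/-- Round 3: the backup fits below the pool. -/
lemma num3 {T b : ℕ} (hT : 1 ≤ T) (hb : b ≤ 2 ^ (3 * T + 9)) :
    ((2 * (3 * T + 9) + T + 5) * T + 8 + 1) * b + (T + 12) ≤ 2 ^ (32 * T) := by
  have h0 : T ≤ 2 ^ T := exp_le_lin T
  have h1 : 2 * (3 * T + 9) + T + 5 ≤ 2 ^ (T + 5) := by rw [pow_add]; omega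
  have h2 : 9 ≤ 2 ^ (T + 5 + T) :=
    le_trans (by norm_num) (Nat.pow_le_pow_right (by norm_num) (show 4 ≤ _ by omega))
  have h3 := mul_le_two_pow (add_le_two_pow (mul_le_two_pow h1 h0) h2) hb
  have h4 : T + 12 ≤ 2 ^ (T + 5 + T + 1 + (3 * T + 9)) :=
    (exp_le_lin _).trans (Nat.pow_le_pow_right (by norm_num) (by omega))
  have h5 := add_le_two_pow h3 h4
  calc _ ≤ _ := by simpa [add_assoc] using h5
    _ ≤ _ := Nat.pow_le_pow_right (by norm_num) (by omega)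

lemma pool_le (q : ℕ) : (2 : ℝ) ^ q * (1 / 4 : ℝ) ^ q = (1 / 2 : ℝ) ^ q := by
  rw [← mul_pow]; norm_num

lemma half_le {m n : ℕ} (h : m ≤ n) : (1 / 2 : ℝ) ^ n ≤ (1 / 2 : ℝ) ^ m :=
  pow_le_pow_of_le_one (by norm_num) (by norm_num) h

end Bottom

open Bottom in
theorem bottom_cover : BottomCover := by
  classical
  intro X _ _ g a r T hT hs hcost hr hra
  set L := lev T 0 with hLdef
  have ha := hs.dens
  have hra' : r ≤ (1 / 256) * a := by linarith
  have hra1 : r ≤ a := by linarith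
  -- weights
  set f0 : Finset X → ℝ := fun S => if (1 / 2 : ℝ) ^ L < g S then g S else 0 with hf0
  have f0nn : ∀ S, 0 ≤ f0 S := fun S => by
    simp only [hf0]; split_ifs; exacts [hs.nonneg S, le_rfl]
  have f0le : ∀ S, f0 S ≤ g S := fun S => by
    simp only [hf0]; split_ifs; exacts [le_rfl, hs.nonneg S]
  have f0card : ∀ S, f0 S ≠ 0 → S.card ≤ T := fun S h => hs.card_le S fun hg => h (by
    simp only [hf0, hg]; split_ifs <;> rfl)
  set f1 := link g a T with hf1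
  set f2 := link g (2 * a) T with hf2
  have f1nn : ∀ U, 0 ≤ f1 U := link_nonneg hs.nonneg ha
  have f2nn : ∀ U, 0 ≤ f2 U := link_nonneg hs.nonneg (by linarith)
  have f1Phi : ∀ U, Phi f1 a U ≤ Phi g (2 * a) U := fun U =>
    (Phi_link_le hs.nonneg ha ha U).trans_eq (by rw [two_mul])
  have f2Phi : ∀ U, Phi f2 a U ≤ Phi g (3 * a) U := fun U =>
    (Phi_link_le hs.nonneg (by linarith) ha U).trans_eq (by rw [show a + 2 * a = 3 * a by ring])
  have hempty : ∀ d, 0 ≤ d → d ≤ 16 * a → Phi g d ∅ ≤ (1 / 2 : ℝ) ^ (64 * T) := by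
    intro d hd hd16
    rw [Phi_empty]
    refine le_trans (sum_le_sum fun S _ => ?_) hcost
    exact mul_le_mul_of_nonneg_left (pow_le_pow_left₀ hd hd16 _) (hs.nonneg S)
  have hsmall : (1 / 2 : ℝ) ^ (64 * T) ≤ 1 / 256 :=
    (half_le (show 8 ≤ 64 * T by omega)).trans (by norm_num)
  -- parameters
  set q1 := 4 * L + 8 * T + 64 with hq1
  set q2 := 3 * expo T + 8 * T + 64 with hq2
  set b1 := q1 * T with hb1
  set b2 := q2 * T with hb2
  set tests1 := (univ : Finset (Finset X)).filter (fun A =>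
    IsTest f0 ((1 / 2 : ℝ) ^ L) (1 / 2) (2 ^ L) A ∧ Light g a T A ∧
      ∀ P, P ⊆ A → P.card ≤ q1 * T → ∑ U ∈ layer T P, Phi f0 a U ≤ 1 / 2 / 4) with ht1
  set tests2 := (univ : Finset (Finset X)).filter (fun A =>
    IsTest f1 (thr T b1 5) (1 / 16) b1 A ∧ Light g a T A ∧
      ∀ P, P ⊆ A → P.card ≤ q2 * T → ∑ U ∈ layer T P, Phi f1 a U ≤ 1 / 16 / 4) with ht2
  set tests3 := (univ : Finset (Finset X)).filter (fun A =>
    IsTest f2 (thr T b2 8) (1 / 128) b2 A ∧ Light g a T A) with ht3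
  obtain ⟨G1, hG1, hc1⟩ := step_cover (ρ := 1 / 256) (T := T) (q := q1) (n := 2 ^ L)
    (δ := (1 / 2 : ℝ) ^ L) (w := 1 / 2) (B := crude T (2 ^ L)) (N := (2 : ℝ) ^ q1)
    f0nn f0card hr ha (by norm_num) (by norm_num) hra' (by norm_num) (by positivity)
    (crude_nonneg _ _) (by positivity) tests1
    (fun A hA => (mem_filter.1 hA).2.1)
    (fun A hA P hP => test_bound hs le_rfl (by norm_num) f0nn f0card
      (fun U => (Phi_mono ha f0le U).trans_eq (by rw [one_mul])) hr hra1 (by positivity)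
      (mem_filter.1 hA).2.1 (mem_filter.1 hA).2.2.1 hP)
    (fun A hA => (mem_filter.1 hA).2.2.2)
  obtain ⟨G2, hG2, hc2⟩ := step_cover (ρ := 1 / 256) (T := T) (q := q2) (n := b1)
    (δ := thr T b1 5) (w := 1 / 16) (B := crude T b1) (N := (2 : ℝ) ^ q2)
    f1nn link_card hr ha (by norm_num) (by norm_num) hra' (by norm_num) (thr_pos _ _ _)
    (crude_nonneg _ _) (by positivity) tests2
    (fun A hA => (mem_filter.1 hA).2.1)
    (fun A hA P hP => test_bound hs (c := 2) (by norm_num) (by norm_num) f1nn link_card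
      f1Phi hr hra1 (thr_pos _ _ _)
      (mem_filter.1 hA).2.1 (mem_filter.1 hA).2.2.1 hP)
    (fun A hA => (mem_filter.1 hA).2.2.2)
  have hC : ∑ U : Finset X, f2 U * r ^ U.card ≤ (1 / 2 : ℝ) ^ (64 * T) := by
    rw [← Phi_empty]
    exact (Phi_link_le hs.nonneg (by linarith) hr ∅).trans
      (hempty _ (by linarith) (by linarith))
  obtain ⟨G3, hG3, hc3⟩ := single_cover (n := b2) (δ := thr T b2 8) (w := 1 / 128)
    (B := crude T b2) (N := (2 : ℝ) ^ (32 * T))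
    f2nn hr (by norm_num) (thr_pos _ _ _) (crude_nonneg _ _) (by positivity) hC tests3
    (fun A hA => (mem_filter.1 hA).2.1)
    (fun A hA P hP => test_bound hs (c := 3) (by norm_num) le_rfl f2nn link_card
      f2Phi hr hra1 (thr_pos _ _ _)
      (mem_filter.1 hA).2.1 (mem_filter.1 hA).2.2 hP)
  refine ⟨G1 ∪ G2 ∪ G3, ?_, ?_⟩
  · -- cost
    have p0 : ∀ s : Finset (Finset X), 0 ≤ ∑ U ∈ s, r ^ U.card :=
      fun s => sum_nonneg fun U _ => pow_nonneg hr _
    have hunion : ∀ s t : Finset (Finset X),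
        ∑ U ∈ s ∪ t, r ^ U.card ≤ ∑ U ∈ s, r ^ U.card + ∑ U ∈ t, r ^ U.card := fun s t => by
      have := sum_union_inter (s₁ := s) (s₂ := t) (f := fun U : Finset X => r ^ U.card)
      linarith [p0 (s ∩ t)]
    have k1 : (2 : ℝ) ^ q1 * (1 / 4 : ℝ) ^ q1 ≤ (1 / 2 : ℝ) ^ (T + 12) := by
      rw [pool_le]; exact half_le (by omega)
    have k2 : (2 : ℝ) ^ q2 * (1 / 4 : ℝ) ^ q2 ≤ (1 / 2 : ℝ) ^ (T + 12) := by
      rw [pool_le]; exact half_le (by omega)
    have k3 : (2 : ℝ) ^ (32 * T) / (1 / 128) * (1 / 2 : ℝ) ^ (64 * T) ≤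
        (1 / 2 : ℝ) ^ (T + 12) := by
      rw [show 64 * T = 32 * T + 32 * T by ring, pow_add]
      have e : (2 : ℝ) ^ (32 * T) * (1 / 2 : ℝ) ^ (32 * T) = 1 := by rw [← mul_pow]; norm_num
      calc _ = (2 : ℝ) ^ (32 * T) * (1 / 2 : ℝ) ^ (32 * T) * (128 * (1 / 2 : ℝ) ^ (32 * T)) := by
            ring
        _ = 128 * (1 / 2 : ℝ) ^ (32 * T) := by rw [e, one_mul]
        _ ≤ 128 * (1 / 2 : ℝ) ^ (T + 19) :=
            mul_le_mul_of_nonneg_left (half_le (by omega)) (by norm_num)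
        _ = _ := by rw [show T + 19 = T + 12 + 7 by ring, pow_add _ (T + 12) 7]; ring
    have e1 : Real.exp (-(2 : ℝ) ^ q1) * (crude T (2 ^ L) / (1 / 2 : ℝ) ^ L + 1) ^ (2 ^ L) ≤
        (1 / 2 : ℝ) ^ (T + 12) := by
      refine exp_neg_two_pow (E := ((L + T + 4) * T + L + 1) * 2 ^ L) ?_ (num1 hT)
      rw [pow_mul]
      refine pow_le_pow_left₀ (add_nonneg (div_nonneg (crude_nonneg _ _) (by positivity))
        zero_le_one) (add_one_le_two_pow ?_) _
      rw [half_pow_eq, div_inv_eq_mul, pow_add]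
      exact mul_le_mul_of_nonneg_right (crude_le le_rfl) (by positivity)
    have e2 : Real.exp (-(2 : ℝ) ^ q2) * (crude T b1 / thr T b1 5 + 1) ^ b1 ≤
        (1 / 2 : ℝ) ^ (T + 12) :=
      exp_neg_two_pow (backup_le (q1_le hT)) (num2 hT (q1_le hT))
    have e3 : Real.exp (-(2 : ℝ) ^ (32 * T)) * (crude T b2 / thr T b2 8 + 1) ^ b2 ≤
        (1 / 2 : ℝ) ^ (T + 12) :=
      exp_neg_two_pow (backup_le (q2_le hT)) (num3 hT (q2_le hT))
    have e12 : (1 / 2 : ℝ) ^ (T + 12) = (1 / 2 : ℝ) ^ (T + 8) * (1 / 16) := by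
      rw [pow_add _ (T + 8) 4]; norm_num
    have hpos : (0 : ℝ) ≤ (1 / 2 : ℝ) ^ (T + 8) := by positivity
    linarith [hunion (G1 ∪ G2) G3, hunion G1 G2]
  · -- covering
    intro H hL hH
    have cov : ∀ (G : Finset (Finset X)) (A : Finset X), G ⊆ G1 ∪ G2 ∪ G3 → A ⊆ H →
        Covered G A → Covered (G1 ∪ G2 ∪ G3) H := fun G A hG hA ⟨U, hU, hUA⟩ =>
      ⟨U, hG hU, hUA.trans hA⟩
    obtain ⟨A0, hA0, htest0⟩ := heavy_test hs.nonneg hH
    have hL0 := hL.mono hs.nonneg ha hA0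
    by_cases hgood1 : ∀ P, P ⊆ A0 → P.card ≤ q1 * T → ∑ U ∈ layer T P, Phi f0 a U ≤ 1 / 2 / 4
    · exact cov G1 A0 (subset_union_left.trans subset_union_left) hA0
        (hG1 A0 (mem_filter.2 ⟨mem_univ _, htest0, hL0, hgood1⟩))
    push Not at hgood1
    obtain ⟨P1, hP1, hc1', hbig1⟩ := hgood1
    obtain ⟨A1, hA1, htest1⟩ := exists_test (h := f1) (δ := thr T b1 5) (w := 1 / 16) (b := b1)
      (T := T) (B := P1) (thr_pos _ _ _).le hc1' link_card (by
        rw [thr_mul, hf1, sum_link]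
        have hle := sum_le_sum fun U (_ : U ∈ layer T P1) => Phi_mono ha f0le U
        linarith [hempty a ha (by linarith)]) (by norm_num) f1nn
    have hA1H : A1 ⊆ H := hA1.trans (hP1.trans hA0)
    have hL1 := hL.mono hs.nonneg ha hA1H
    by_cases hgood2 : ∀ P, P ⊆ A1 → P.card ≤ q2 * T → ∑ U ∈ layer T P, Phi f1 a U ≤ 1 / 16 / 4
    · exact cov G2 A1 (subset_union_right.trans subset_union_left) hA1H
        (hG2 A1 (mem_filter.2 ⟨mem_univ _, htest1, hL1, hgood2⟩))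
    push Not at hgood2
    obtain ⟨P2, hP2, hc2', hbig2⟩ := hgood2
    obtain ⟨A2, hA2, htest2⟩ := exists_test (h := f2) (δ := thr T b2 8) (w := 1 / 128) (b := b2)
      (T := T) (B := P2) (thr_pos _ _ _).le hc2' link_card (by
        rw [thr_mul, hf2, sum_link]
        have hle := sum_le_sum fun U (_ : U ∈ layer T P2) => f1Phi U
        linarith [hempty (2 * a) (by linarith) (by linarith)]) (by norm_num) f2nn
    have hA2H : A2 ⊆ H := hA2.trans (hP2.trans hA1H)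
    exact cov G3 A2 subset_union_right hA2H
      (hG3 A2 (mem_filter.2 ⟨mem_univ _, htest2, hL.mono hs.nonneg ha hA2H⟩))

end Vale.Agent.P034.Full
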