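import Vale.Agent.P034.Full.Params

/-!
The light classes: choice of class, mass and load scale, and the numerical estimates.
-/

namespace Vale.Agent.P034.Full

open Finset

set_option linter.unusedSectionVars false

variable {X : Type} [Fintype X] [DecidableEq X]

lemma half_pow_le {m n : ℕ} (h : n ≤ m) : (1 / 2 : ℝ) ^ m ≤ (1 / 2) ^ n :=
  pow_le_pow_of_le_one (by norm_num) (by norm_num) h

lemma two_mul_half_pow {a b : ℕ} : (2 : ℝ) ^ a * (1 / 2) ^ (a + b) = (1 / 2) ^ b := by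
  rw [pow_add, ← mul_assoc, ← mul_pow]; norm_num

lemma two_pow_mul_half_le {a b c : ℕ} (h : a + c ≤ b) : (2 : ℝ) ^ a * (1 / 2) ^ b ≤ (1 / 2) ^ c := by
  obtain ⟨d, rfl⟩ := Nat.exists_eq_add_of_le h
  rw [show a + c + d = a + (c + d) by ring, two_mul_half_pow]
  exact half_pow_le (by omega)

/-- `exp (-x)` is below `2 ^ -x`. -/
lemma exp_neg_two_pow (q : ℕ) : Real.exp (-((2 : ℝ) ^ q)) ≤ (1 / 2 : ℝ) ^ (2 ^ q) := by
  rw [show (-((2 : ℝ) ^ q)) = ((2 ^ q : ℕ) : ℝ) * (-1) by push_cast; ring, Real.exp_nat_mul]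
  refine pow_le_pow_left₀ (Real.exp_pos _).le ?_ _
  rw [Real.exp_neg, one_div]
  exact inv_anti₀ (by norm_num) (by linarith [Real.add_one_le_exp (1 : ℝ)])

lemma sum_biUnion_le_sum {ι β : Type*} [DecidableEq β] {s : Finset ι} {t : ι → Finset β}
    {f : β → ℝ} (hf : ∀ b, 0 ≤ f b) : ∑ b ∈ s.biUnion t, f b ≤ ∑ i ∈ s, ∑ b ∈ t i, f b := by
  classical
  induction s using Finset.induction_on with
  | empty => simp
  | @insert i s hi ih =>
    rw [biUnion_insert, sum_insert hi]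
    have h1 := sum_union_inter (s₁ := t i) (s₂ := s.biUnion t) (f := f)
    have h2 : 0 ≤ ∑ b ∈ t i ∩ s.biUnion t, f b := sum_nonneg fun b _ => hf b
    linarith

lemma lev_pred {T j : ℕ} (hj : 1 ≤ j) : lev T j = 2 * lev T (j - 1) := by
  obtain ⟨k, rfl⟩ := Nat.exists_eq_add_of_le' hj
  simp only [lev, Nat.add_sub_cancel, ← add_assoc, pow_succ]
  ring

lemma self_lt_lev (T j : ℕ) : expo T + j < lev T j := Nat.lt_two_pow_self

lemma kap_ge {T : ℕ} (hT : 1 ≤ T) (j s : ℕ) : expo T + j + T + 32 ≤ kap T j s :=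
  Nat.le_mul_of_pos_left _ (Nat.pow_pos (by omega))

lemma kap_succ (T j s : ℕ) : kap T j (s + 1) = 8 * T * kap T j s := by
  simp only [kap, pow_succ]; ring

lemma top_bound {T j s : ℕ} (hT : 1 ≤ T) (hj : 1 ≤ j) (hs : s ≤ 4 * T) :
    (kap T j s + 2 * T + 1) * T + j + 2 * T + 30 ≤ lev T (j - 1) := by
  set γ := (4 * T + 2) * (T + 4) with hγ
  have hexp : expo T = 2 * γ + 64 := rfl
  have hk := kap_ge hT j s
  have h1 : (8 * T) ^ s * (8 * T) ≤ 2 ^ γ := by
    have h8 : 8 * T ≤ 2 ^ (T + 3) := by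
      rw [pow_add]; nlinarith [T.lt_two_pow_self]
    calc (8 * T) ^ s * (8 * T) = (8 * T) ^ (s + 1) := (pow_succ _ _).symm
      _ ≤ (2 ^ (T + 3)) ^ (s + 1) := Nat.pow_le_pow_left h8 _
      _ = 2 ^ ((T + 3) * (s + 1)) := (pow_mul _ _ _).symm
      _ ≤ 2 ^ γ := Nat.pow_le_pow_right (by norm_num) (by
          rw [hγ, mul_comm (4 * T + 2)]; exact Nat.mul_le_mul (by omega) (by omega))
  have h2 : expo T + j + T + 32 ≤ 2 ^ (γ + 32 + j) := by
    have hx : γ + 32 + j - 2 < 2 ^ (γ + 32 + j - 2) := Nat.lt_two_pow_self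
    have hsplit : 2 ^ (γ + 32 + j) = 4 * 2 ^ (γ + 32 + j - 2) := by
      rw [show γ + 32 + j = (γ + 32 + j - 2) + 2 by omega, pow_add]
      simp; ring
    have hTγ : T ≤ γ := by rw [hγ]; nlinarith
    rw [hexp, hsplit]; omega
  have h3 : 8 * T * kap T j s ≤ lev T (j - 1) := by
    calc 8 * T * kap T j s = ((8 * T) ^ s * (8 * T)) * (expo T + j + T + 32) := by
          simp only [kap]; ring
      _ ≤ 2 ^ γ * 2 ^ (γ + 32 + j) := Nat.mul_le_mul h1 h2
      _ ≤ lev T (j - 1) := by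
          rw [← pow_add, lev]; exact Nat.pow_le_pow_right (by norm_num) (by omega)
  have : T * kap T j s ≥ T * (expo T + j + T + 32) := Nat.mul_le_mul_left T hk
  nlinarith

lemma base_bound {T : ℕ} (_hT : 1 ≤ T) (j s : ℕ) :
    (((T * 2 ^ kap T j s : ℕ) : ℝ) * T + 1) ≤ 2 ^ (kap T j s + 2 * T + 1) := by
  have h : T * 2 ^ kap T j s * T + 1 ≤ 2 ^ (kap T j s + 2 * T + 1) := by
    have hT2 : T * T ≤ 2 ^ (2 * T) := by
      rw [two_mul, pow_add]; exact Nat.mul_le_mul T.lt_two_pow_self.le T.lt_two_pow_self.le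
    have hp : 1 ≤ 2 ^ (kap T j s + 2 * T) := Nat.one_le_two_pow
    have : 2 ^ kap T j s * (T * T) ≤ 2 ^ (kap T j s + 2 * T) := by
      rw [pow_add]; exact Nat.mul_le_mul_left _ hT2
    rw [pow_succ]; nlinarith
  exact_mod_cast h

/-- The conditions of `level_cover` for class `j`, mass `2 ^ -i` and scale `s`. -/
theorem param_cover {g : Finset X → ℝ} {a r : ℝ} {T j i s : ℕ} (hs : Sys g a T) (hT : 1 ≤ T)
    (hj : 1 ≤ j) (hi : i ≤ j + 4) (hsT : s < 4 * T) (hr : 0 ≤ r) (hra : r ≤ a / 256)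
    (gc : Finset X → ℝ) (h0 : ∀ S, 0 ≤ gc S) (hle : ∀ S, gc S ≤ g S)
    (hγ : ∀ S, gc S ≤ (1 / 2 : ℝ) ^ lev T (j - 1)) :
    ∃ G : Finset (Finset X), ∑ U ∈ G, r ^ U.card ≤ (1 / 2 : ℝ) ^ (2 * T + 3 * j + 23) ∧
      ∀ A, Light g a T A → (1 / 2 : ℝ) ^ i ≤ ∑ S ∈ A.powerset, gc S →
        (∃ F : Finset (Finset X), F.card ≤ 2 ^ lev T j + 1 ∧
          (∀ S ∈ F, (1 / 2 : ℝ) ^ lev T j ≤ gc S) ∧ F.biUnion id = A) →
        middle gc A (2 ^ kap T j s) (2 ^ kap T j (s + 1)) ≤ (∑ S ∈ A.powerset, gc S) / 4 →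
        canonStat g gc a ((1 / 2 : ℝ) ^ lam T j s) A
          + ∑ S' : Finset X, gc S' * a ^ S'.card ≤ 2 * (1 / 2 : ℝ) ^ i →
        Covered G A := by
  classical
  set κ := kap T j s with hκ
  set L := lev T j with hL
  set L' := lev T (j - 1) with hL'
  set u := κ + 2 * T + 1 with hu
  set q := 2 ^ (κ + T + 5 + (expo T + j)) with hq
  set tgt := 2 * T + 3 * j + 24 with htgt
  have hk := kap_ge hT j s
  have htop : u * T + j + 2 * T + 30 ≤ L' := top_bound hT hj hsT.le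
  have hlam : lam T j s = u * T + (j + T + 24) := rfl
  have hLL : L = 2 * L' := lev_pred hj
  have hbase : ((((T * 2 ^ κ : ℕ) : ℝ) * T + 1)) ^ T ≤ (2 : ℝ) ^ (u * T) := by
    rw [pow_mul]; exact pow_le_pow_left₀ (by positivity) (base_bound hT j s) T
  have hκ' : kap T j (s + 1) = 8 * T * κ := kap_succ T j s
  set tests := (univ : Finset (Finset X)).filter (fun A => Light g a T A ∧
      (1 / 2 : ℝ) ^ i ≤ ∑ S ∈ A.powerset, gc S ∧
      (∃ F : Finset (Finset X), F.card ≤ 2 ^ lev T j + 1 ∧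
          (∀ S ∈ F, (1 / 2 : ℝ) ^ lev T j ≤ gc S) ∧ F.biUnion id = A) ∧
      middle gc A (2 ^ κ) (2 ^ kap T j (s + 1)) ≤ (∑ S ∈ A.powerset, gc S) / 4 ∧
      canonStat g gc a ((1 / 2 : ℝ) ^ lam T j s) A
          + ∑ S' : Finset X, gc S' * a ^ S'.card ≤ 2 * (1 / 2 : ℝ) ^ i) with htests
  obtain ⟨G, hG, hcost⟩ := level_cover (g := g) (gc := gc) (a := a) (r := r) (ρ := 1 / 256)
    (thr := (1 / 2 : ℝ) ^ lam T j s) (γ := (1 / 2 : ℝ) ^ L') (δ := (1 / 2 : ℝ) ^ L)
    (w := (1 / 2 : ℝ) ^ i) (N := (2 : ℝ) ^ q) (T := T) (Qlo := 2 ^ κ)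
    (Qhi := 2 ^ kap T j (s + 1)) (q := q) (n := 2 ^ L + 1)
    hs h0 hle hγ (by positivity) hr (by norm_num) (by norm_num) (by linarith)
    (by positivity) (by positivity) (by positivity) (by positivity)
    (by
      refine (mul_le_mul_of_nonneg_right hbase (by positivity)).trans ?_
      rw [show (1 / 2 : ℝ) ^ i / 32 = (1 / 2) ^ (i + 5) by rw [pow_add]; norm_num; ring]
      exact two_pow_mul_half_le (by omega))
    (by
      refine (mul_le_mul_of_nonneg_right hbase (by positivity)).trans ?_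
      rw [show (1 / 2 : ℝ) ^ i / 16 = (1 / 2) ^ (i + 4) by rw [pow_add]; norm_num; ring]
      exact two_pow_mul_half_le (by omega))
    (by
      have h8 : (8 : ℝ) * (T : ℝ) ^ 2 * 2 ^ T ≤ 2 ^ (3 * T + 3) := by
        have : (T : ℝ) ≤ 2 ^ T := by exact_mod_cast T.lt_two_pow_self.le
        rw [show 3 * T + 3 = 3 + (2 * T + T) by ring, pow_add, pow_add, pow_mul' 2 2 T]
        rw [show (2:ℝ) ^ 3 = 8 by norm_num, ← mul_assoc]
        gcongr
      refine h8.trans ?_
      push_cast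
      rw [one_div, inv_pow, ← div_eq_mul_inv, le_div_iff₀ (by positivity), ← pow_add]
      refine pow_le_pow_right₀ (by norm_num) ?_
      rw [hκ']; simp only [lam, ← hκ]
      have : T * (expo T + j + T + 32) ≤ T * κ := Nat.mul_le_mul_left T hk
      nlinarith)
    (by
      have : 8 * q * T ≤ 2 ^ kap T j (s + 1) := by
        calc 8 * q * T ≤ 2 ^ 3 * q * 2 ^ T := by
              rw [show (2 : ℕ) ^ 3 = 8 by norm_num]
              exact Nat.mul_le_mul_left _ T.lt_two_pow_self.le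
          _ = 2 ^ (3 + (κ + T + 5 + (expo T + j)) + T) := by rw [hq, ← pow_add, ← pow_add]
          _ ≤ _ := Nat.pow_le_pow_right (by norm_num) (by
              rw [hκ']
              have : T * (expo T + j + T + 32) ≤ T * κ := Nat.mul_le_mul_left T hk
              nlinarith)
      exact_mod_cast this)
    tests (fun A hA => (mem_filter.1 hA).2)
  refine ⟨G, hcost.trans ?_, fun A h1 h2 h3 h4 h5 =>
    hG A (mem_filter.2 ⟨mem_univ _, h1, h2, h3, h4, h5⟩)⟩
  have hinv : ∀ (B : ℝ) (m : ℕ), 0 ≤ B → B ≤ 2 ^ m →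
      B / (1 / 2 : ℝ) ^ L + 1 ≤ 2 ^ (m + L + 1) := by
    intro B m hB hBm
    have h1 : B / (1 / 2 : ℝ) ^ L = B * 2 ^ L := by rw [one_div, inv_pow, div_inv_eq_mul]
    rw [h1, pow_succ, pow_add]
    have h2 : (1 : ℝ) ≤ 2 ^ m * 2 ^ L := by
      rw [← pow_add]; exact one_le_pow₀ (by norm_num)
    nlinarith [mul_le_mul_of_nonneg_right hBm (by positivity : (0:ℝ) ≤ 2 ^ L)]
  have hq32 : 32 * (2 ^ (κ + T) * L) = q := by
    rw [hq, hL, lev, show κ + T + 5 + (expo T + j) = 5 + (κ + T) + (expo T + j) by ring,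
      pow_add, pow_add]
    norm_num; ring
  have hb : T * 2 ^ κ ≤ 2 ^ (κ + T) := by
    rw [pow_add, mul_comm]; exact Nat.mul_le_mul_left _ T.lt_two_pow_self.le
  have hqbig : κ ≤ 2 ^ (κ + T) * L := by
    refine le_trans ?_ (Nat.le_mul_of_pos_right _ (Nat.two_pow_pos _))
    exact (Nat.lt_two_pow_self).le.trans (Nat.pow_le_pow_right (by norm_num) (by omega))
  have hLq : L ≤ 2 ^ (κ + T) * L := Nat.le_mul_of_pos_left _ (Nat.two_pow_pos _)
  have hpool : (2 : ℝ) ^ q * ((((((T * 2 ^ κ : ℕ) : ℝ)) * T + 1) ^ T * 2 ^ T) / (1 / 2 : ℝ) ^ L + 1)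
      ^ (T * 2 ^ κ) * (1 / 4) ^ q ≤ (1 / 2 : ℝ) ^ tgt := by
    have hstep := hinv ((((T * 2 ^ κ : ℕ) : ℝ) * T + 1) ^ T * 2 ^ T) (u * T + T) (by positivity)
      (by rw [pow_add]; exact mul_le_mul_of_nonneg_right hbase (by positivity))
    have hexp : (u * T + T + L + 1) * (T * 2 ^ κ) ≤ 2 * (2 ^ (κ + T) * L) := by
      calc (u * T + T + L + 1) * (T * 2 ^ κ) ≤ (2 * L) * 2 ^ (κ + T) :=
            Nat.mul_le_mul (by omega) hb
        _ = _ := by ring
    calc _ ≤ (2 : ℝ) ^ q * (2 ^ (u * T + T + L + 1)) ^ (T * 2 ^ κ) * (1 / 4) ^ q := by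
          refine mul_le_mul_of_nonneg_right (mul_le_mul_of_nonneg_left
            (pow_le_pow_left₀ (by positivity) hstep _) (by positivity)) (by positivity)
      _ = (2 : ℝ) ^ (q + (u * T + T + L + 1) * (T * 2 ^ κ)) * (1 / 2) ^ (2 * q) := by
          rw [← pow_mul, ← pow_add, pow_mul (1 / 2 : ℝ) 2 q]; norm_num
      _ ≤ _ := two_pow_mul_half_le (by omega)
  have hback : Real.exp (-((2 : ℝ) ^ q))
      * (((((2 ^ L + 1) * T : ℕ) : ℝ) + 1) ^ T * 2 ^ T / (1 / 2 : ℝ) ^ L + 1) ^ (2 ^ L + 1)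
      ≤ (1 / 2 : ℝ) ^ tgt := by
    have hbn : (((((2 ^ L + 1) * T : ℕ) : ℝ) + 1)) ≤ (2 : ℝ) ^ (L + T + 2) := by
      have : (2 ^ L + 1) * T + 1 ≤ 2 ^ (L + T + 2) := by
        have h1 : 2 ^ L + 1 ≤ 2 ^ (L + 1) := by
          rw [pow_succ]; have := Nat.one_le_two_pow (n := L); omega
        have h2 : (2 ^ L + 1) * T ≤ 2 ^ (L + 1) * 2 ^ T := Nat.mul_le_mul h1 T.lt_two_pow_self.le
        rw [← pow_add] at h2
        rw [show L + T + 2 = (L + 1 + T) + 1 by ring, pow_succ]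
        have := Nat.one_le_two_pow (n := L + 1 + T); omega
      exact_mod_cast this
    have hstep := hinv (((((2 ^ L + 1) * T : ℕ) : ℝ) + 1) ^ T * 2 ^ T) ((L + T + 2) * T + T)
      (by positivity) (by
        rw [pow_add, pow_mul]
        exact mul_le_mul_of_nonneg_right (pow_le_pow_left₀ (by positivity) hbn T) (by positivity))
    have hLT : T + 2 ≤ L := by
      have := self_lt_lev T j
      have : T + 2 ≤ expo T := by unfold expo; nlinarith
      omega
    have hexp : ((L + T + 2) * T + T + L + 1) * (2 ^ L + 1) + tgt ≤ 2 ^ q := by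
      have h1 : (L + T + 2) * T + T + L + 1 ≤ 2 ^ (2 * L + 2) := by
        calc (L + T + 2) * T + T + L + 1 ≤ 4 * (L * L) := by nlinarith
          _ ≤ 4 * (2 ^ L * 2 ^ L) :=
              Nat.mul_le_mul_left 4 (Nat.mul_le_mul L.lt_two_pow_self.le L.lt_two_pow_self.le)
          _ = _ := by rw [show 2 * L + 2 = 2 + (L + L) by ring, pow_add, pow_add]; norm_num
      have h2 : 2 ^ L + 1 ≤ 2 ^ (L + 1) := by
        rw [pow_succ]; have := Nat.one_le_two_pow (n := L); omega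
      have h3 := Nat.mul_le_mul h1 h2
      rw [← pow_add] at h3
      have h4 : tgt ≤ 2 ^ (3 * L + 3) := by
        refine le_trans ?_ (Nat.lt_two_pow_self).le
        have := self_lt_lev T j
        omega
      have h5 : 2 ^ (3 * L + 3) * 2 ≤ 2 ^ q := by
        rw [← pow_succ]; exact Nat.pow_le_pow_right (by norm_num) (by omega)
      rw [show 2 * L + 2 + (L + 1) = 3 * L + 3 by ring] at h3
      omega
    calc _ ≤ (1 / 2 : ℝ) ^ (2 ^ q) * (2 ^ ((L + T + 2) * T + T + L + 1)) ^ (2 ^ L + 1) :=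
          mul_le_mul (exp_neg_two_pow q) (pow_le_pow_left₀ (by positivity) hstep _)
            (by positivity) (by positivity)
      _ = (2 : ℝ) ^ (((L + T + 2) * T + T + L + 1) * (2 ^ L + 1)) * (1 / 2) ^ (2 ^ q) := by
          rw [← pow_mul, mul_comm]
      _ ≤ _ := two_pow_mul_half_le hexp
  refine (add_le_add hpool hback).trans (le_of_eq ?_)
  rw [htgt, show 2 * T + 3 * j + 24 = (2 * T + 3 * j + 23) + 1 by ring, pow_succ]
  ring

lemma exists_cls {g : Finset X → ℝ} {T : ℕ} {S : Finset X} (h : 0 < g S) :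
    ∃ j, (1 / 2 : ℝ) ^ lev T j < g S := by
  obtain ⟨n, hn⟩ := exists_pow_lt_of_lt_one h (show (1 / 2 : ℝ) < 1 by norm_num)
  exact ⟨n, lt_of_le_of_lt (half_pow_le (by have := self_lt_lev T n; omega)) hn⟩

lemma cls_gt {g : Finset X → ℝ} {T : ℕ} {S : Finset X} (h : 0 < g S) :
    (1 / 2 : ℝ) ^ lev T (cls T g S) < g S := by
  classical
  rw [cls, dif_pos (exists_cls h)]
  exact Nat.find_spec (exists_cls h)

lemma le_of_cls {g : Finset X → ℝ} {T : ℕ} {S : Finset X} (h : 0 < g S) {j : ℕ}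
    (hj : cls T g S = j) (hj1 : 1 ≤ j) : g S ≤ (1 / 2 : ℝ) ^ lev T (j - 1) := by
  classical
  refine not_lt.1 (Nat.find_min (exists_cls h) (m := j - 1) ?_)
  rw [cls, dif_pos (exists_cls h)] at hj
  omega

lemma heavy_mono {gc : Finset X → ℝ} (h0 : ∀ S, 0 ≤ gc S) (A : Finset X) {Q Q' : ℕ} (h : Q ≤ Q') :
    heavy gc A Q ⊆ heavy gc A Q' := fun x hx => by
  rw [heavy, mem_filter] at hx ⊢
  refine ⟨hx.1, hx.2.trans (mul_le_mul_of_nonneg_right (Nat.cast_le.2 h) ?_)⟩
  exact sum_nonneg fun S _ => by split_ifs <;> simp [h0 S]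

lemma exists_scale {gc : Finset X → ℝ} (h0 : ∀ S, 0 ≤ gc S) {T : ℕ} (hT : 1 ≤ T)
    (hcard : ∀ S, gc S ≠ 0 → S.card ≤ T) (A : Finset X) (Q : ℕ → ℕ) (hQ : Monotone Q) :
    ∃ s, s < 4 * T ∧ middle gc A (Q s) (Q (s + 1)) ≤ (∑ S ∈ A.powerset, gc S) / 4 := by
  have htot : ∑ s ∈ range (4 * T), middle gc A (Q s) (Q (s + 1))
      ≤ ((4 * T : ℕ) : ℝ) * ((∑ S ∈ A.powerset, gc S) / 4) := by
    simp only [middle]
    rw [sum_comm, show ((4 * T : ℕ) : ℝ) * ((∑ S ∈ A.powerset, gc S) / 4)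
      = (T : ℝ) * ∑ S ∈ A.powerset, gc S by push_cast; ring, mul_sum]
    refine sum_le_sum fun S _ => ?_
    by_cases hS : gc S = 0
    · simp [hS]
    set f : ℕ → ℝ := fun s => ((S ∩ heavy gc A (Q s)).card : ℝ) with hf
    have hstep : ∀ s ∈ range (4 * T),
        (if Disjoint S (heavy gc A (Q (s + 1)) \ heavy gc A (Q s)) then 0 else gc S)
          ≤ gc S * (f (s + 1) - f s) := by
      intro s _
      have hsub : S ∩ heavy gc A (Q s) ⊆ S ∩ heavy gc A (Q (s + 1)) :=
        inter_subset_inter subset_rfl (heavy_mono h0 A (hQ (Nat.le_succ s)))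
      split_ifs with hd
      · exact mul_nonneg (h0 S) (sub_nonneg.2 (Nat.cast_le.2 (card_le_card hsub)))
      · refine le_mul_of_one_le_right (h0 S) ?_
        obtain ⟨x, hxS, hx⟩ := not_disjoint_iff.1 hd
        rw [mem_sdiff] at hx
        have : (S ∩ heavy gc A (Q s)).card < (S ∩ heavy gc A (Q (s + 1))).card :=
          card_lt_card (Finset.ssubset_iff_of_subset hsub |>.2
            ⟨x, mem_inter.2 ⟨hxS, hx.1⟩, fun h => hx.2 (mem_inter.1 h).2⟩)
        have h' : f s + 1 ≤ f (s + 1) := by simp only [hf]; exact_mod_cast this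
        linarith
    refine (sum_le_sum hstep).trans ?_
    rw [← mul_sum, sum_range_sub f, mul_comm (T : ℝ)]
    refine mul_le_mul_of_nonneg_left ?_ (h0 S)
    have h1 : f (4 * T) ≤ T := by
      simp only [hf]; exact Nat.cast_le.2 ((card_le_card inter_subset_left).trans (hcard S hS))
    have h2 : 0 ≤ f 0 := Nat.cast_nonneg _
    linarith
  by_contra hne
  push Not at hne
  have hlt := sum_lt_sum_of_nonempty (s := range (4 * T)) ⟨0, mem_range.2 (by omega)⟩
    fun s hs => hne s (mem_range.1 hs)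
  rw [sum_const, card_range, nsmul_eq_mul] at hlt
  linarith

lemma sum_half_finset (Js : Finset ℕ) (h : ∀ j ∈ Js, 1 ≤ j) :
    ∑ j ∈ Js, (1 / 2 : ℝ) ^ j ≤ 1 := by
  have hsub : Js ⊆ (range (Js.sup id + 1)).filter (fun j => 1 ≤ j) := fun j hj =>
    mem_filter.2 ⟨mem_range.2 (Nat.lt_succ_of_le (le_sup (f := id) hj)), h j hj⟩
  refine (sum_le_sum_of_subset_of_nonneg hsub fun j _ _ => by positivity).trans ?_
  have key : ∀ n, ∑ j ∈ (range (n + 1)).filter (fun j => 1 ≤ j), (1 / 2 : ℝ) ^ j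
      = 1 - (1 / 2) ^ n := by
    intro n
    induction n with
    | zero => simp [sum_filter]
    | succ n ih => rw [sum_filter, sum_range_succ, ← sum_filter, ih, if_pos (by omega)]; ring
  rw [key]
  have : (0 : ℝ) ≤ (1 / 2) ^ Js.sup id := by positivity
  linarith

lemma chainStat_le {g : Finset X → ℝ} {a : ℝ} {T : ℕ} (hs : Sys g a T) (H : Finset X)
    (hH : CanonLight g a T H) (Js : Finset ℕ) (sc : ℕ → ℕ) (hsc : ∀ j, sc j ≤ 4 * T) :
    ∑ j ∈ Js, canonStat g (fun S => if cls T g S = j then g S else 0) a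
      ((1 / 2 : ℝ) ^ lam T j (sc j)) H ≤ 1 / 64 := by
  classical
  have key : ∑ j ∈ Js, canonStat g (fun S => if cls T g S = j then g S else 0) a
      ((1 / 2 : ℝ) ^ lam T j (sc j)) H ≤ ∑ τ ∈ Ico 1 T, ∑ U ∈ H.powerset, chainWeight g a T τ U := by
    simp only [canonStat, chainWeight]
    have e : ∀ τ ∈ Ico 1 T, ∀ U ∈ H.powerset, ∀ S : Finset X, (0:ℝ) ≤
        if ∃ s ∈ range (4 * T + 1), chainPart g a T s S = U ∧ (S \ U).card = τ ∧ U.Nonempty
        then g S * a ^ τ else 0 := fun τ _ U _ S => by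
      split_ifs
      · exact mul_nonneg (hs.nonneg S) (pow_nonneg hs.dens _)
      · rfl
    rw [sum_comm]
    conv_rhs => arg 2; ext τ; rw [sum_comm]
    rw [sum_comm (s := Ico 1 T)]
    refine sum_le_sum fun S _ => ?_
    by_cases hmem : cls T g S ∈ Js
    swap
    · rw [sum_eq_zero fun j hj => ?_]
      · exact sum_nonneg fun τ hτ => sum_nonneg fun U hU => e τ hτ U hU S
      · have : cls T g S ≠ j := fun h => hmem (h ▸ hj)
        simp [this]
    rw [sum_eq_single_of_mem _ hmem (fun j _ hj => by simp [Ne.symm hj])]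
    rw [if_pos rfl]
    set E := hiUnion g a ((1 / 2 : ℝ) ^ lam T (cls T g S) (sc (cls T g S))) S with hE
    split_ifs with h
    swap
    · exact sum_nonneg fun τ hτ => sum_nonneg fun U hU => e τ hτ U hU S
    by_cases hg : g S = 0
    · rw [hg, zero_mul]; exact sum_nonneg fun τ hτ => sum_nonneg fun U hU => by
        have := e τ hτ U hU S; rwa [hg] at this
    obtain ⟨hEH, hES, hEne⟩ := h
    have hsub := hiUnion_subset g a ((1 / 2 : ℝ) ^ lam T (cls T g S) (sc (cls T g S))) S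
    rw [← hE] at hsub
    have hτ : (S \ E).card ∈ Ico 1 T := by
      rw [mem_Ico, card_sdiff_of_subset hsub, hs.card_eq S hg]
      have := card_lt_card (hsub.ssubset_of_ne hES)
      rw [hs.card_eq S hg] at this
      have := hEne.card_pos
      omega
    refine le_trans ?_ (single_le_sum (fun τ hτ => sum_nonneg fun U hU => e τ hτ U hU S) hτ)
    refine le_trans ?_ (single_le_sum (fun U hU => e _ hτ U hU S) (mem_powerset.2 hEH))
    rw [if_pos ⟨sc (cls T g S), mem_range.2 (Nat.lt_succ_of_le (hsc _)), hE.symm, rfl, hEne⟩]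
  refine key.trans ((sum_le_sum fun τ hτ => hH τ (mem_Ico.1 hτ).1 (mem_Ico.1 hτ).2).trans ?_)
  rw [← sum_div]
  refine div_le_div_of_nonneg_right ?_ (by norm_num)
  exact sum_half_finset _ fun τ hτ => (mem_Ico.1 hτ).1

/-- The bottom class and the light classes together. -/
theorem lightCover_of_bottom (hB : BottomCover) : LightCover := by
  classical
  intro X _ _ g a r T hT hs hθ hr hra
  obtain ⟨G0, hG0, hcov0⟩ := hB X g a r T hT hs hθ hr hra
  set gcl : ℕ → Finset X → ℝ := fun j S => if cls T g S = j then g S else 0 with hgcl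
  have h0 : ∀ j S, 0 ≤ gcl j S := fun j S => by
    simp only [hgcl]; split_ifs <;> simp [hs.nonneg S]
  have hle : ∀ j S, gcl j S ≤ g S := fun j S => by
    simp only [hgcl]; split_ifs <;> simp [hs.nonneg S]
  have hγ : ∀ j, 1 ≤ j → ∀ S, gcl j S ≤ (1 / 2 : ℝ) ^ lev T (j - 1) := by
    intro j hj S
    simp only [hgcl]
    split_ifs with h
    · rcases (hs.nonneg S).eq_or_lt with h' | h'
      · rw [← h']; positivity
      · exact le_of_cls h' h hj
    · positivity
  set Js := ((univ : Finset (Finset X)).image (cls T g)).filter (fun j => 1 ≤ j) with hJs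
  set idx := Js.biUnion (fun j => ((range (j + 5)) ×ˢ range (4 * T)).image
    (fun z => ((j, z.1, z.2) : ℕ × ℕ × ℕ))) with hidx
  have hidx' : ∀ z ∈ idx, 1 ≤ z.1 ∧ z.2.1 ≤ z.1 + 4 ∧ z.2.2 < 4 * T := by
    intro z hz
    simp only [hidx, mem_biUnion, mem_image, mem_product, mem_range] at hz
    obtain ⟨j, hj, ⟨i, s⟩, ⟨hi, hs'⟩, rfl⟩ := hz
    exact ⟨(mem_filter.1 hj).2, by simp; omega, hs'⟩
  have hex := fun z (hz : z ∈ idx) => param_cover (j := z.1) (i := z.2.1) (s := z.2.2) hs hT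
    (hidx' z hz).1 (hidx' z hz).2.1 (hidx' z hz).2.2 hr hra (gcl z.1) (h0 _) (hle _)
    (hγ _ (hidx' z hz).1)
  choose Gz hGz hcovz using hex
  refine ⟨G0 ∪ idx.attach.biUnion (fun z => Gz z.1 z.2), ?_, ?_⟩
  · have hU : ∑ U ∈ G0 ∪ idx.attach.biUnion (fun z => Gz z.1 z.2), r ^ U.card
        ≤ ∑ U ∈ G0, r ^ U.card + ∑ z ∈ idx.attach, ∑ U ∈ Gz z.1 z.2, r ^ U.card := by
      have h1 := sum_union_inter (s₁ := G0) (s₂ := idx.attach.biUnion (fun z => Gz z.1 z.2))
        (f := fun U : Finset X => r ^ U.card)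
      have h2 : (0:ℝ) ≤ ∑ U ∈ G0 ∩ idx.attach.biUnion (fun z => Gz z.1 z.2), r ^ U.card :=
        sum_nonneg fun U _ => pow_nonneg hr _
      have h3 : ∑ U ∈ idx.attach.biUnion (fun z => Gz z.1 z.2), r ^ U.card
          ≤ ∑ z ∈ idx.attach, ∑ U ∈ Gz z.1 z.2, r ^ U.card :=
        sum_biUnion_le_sum (fun U => pow_nonneg hr _)
      linarith
    refine hU.trans ?_
    have hz : ∑ z ∈ idx.attach, ∑ U ∈ Gz z.1 z.2, r ^ U.card
        ≤ ∑ z ∈ idx, (1 / 2 : ℝ) ^ (2 * T + 3 * z.1 + 23) := by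
      rw [← sum_attach idx (fun z => (1 / 2 : ℝ) ^ (2 * T + 3 * z.1 + 23))]
      exact sum_le_sum fun z _ => hGz z.1 z.2
    have hsumj : ∑ z ∈ idx, (1 / 2 : ℝ) ^ (2 * T + 3 * z.1 + 23) ≤ (1 / 2 : ℝ) ^ (T + 8) := by
      refine (sum_biUnion_le_sum (fun z => by positivity)).trans ?_
      calc ∑ j ∈ Js, ∑ z ∈ ((range (j + 5)) ×ˢ range (4 * T)).image
              (fun z => ((j, z.1, z.2) : ℕ × ℕ × ℕ)), (1 / 2 : ℝ) ^ (2 * T + 3 * z.1 + 23)
          ≤ ∑ j ∈ Js, (1 / 2 : ℝ) ^ j * (1 / 2) ^ (T + 8) := by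
            refine sum_le_sum fun j hj => ?_
            refine (sum_image_le_of_nonneg fun z _ => by positivity).trans ?_
            dsimp only
            rw [sum_const, card_product, card_range, card_range, nsmul_eq_mul]
            have hcount : (((j + 5) * (4 * T) : ℕ) : ℝ) ≤ (2 : ℝ) ^ (j + T + 7) := by
              have h1 : j + 5 ≤ 2 ^ (j + 5) := Nat.lt_two_pow_self.le
              have h2 : 4 * T ≤ 2 ^ (T + 2) := by rw [pow_add]; have := T.lt_two_pow_self; omega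
              have := Nat.mul_le_mul h1 h2
              rw [← pow_add] at this
              exact_mod_cast this.trans (Nat.pow_le_pow_right (by norm_num) (by omega))
            rw [← pow_add]
            exact (mul_le_mul_of_nonneg_right hcount (by positivity)).trans
              (two_pow_mul_half_le (by omega))
        _ ≤ 1 * (1 / 2) ^ (T + 8) := by
            rw [← sum_mul]
            exact mul_le_mul_of_nonneg_right
              (sum_half_finset _ fun j hj => (mem_filter.1 hj).2) (by positivity)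
        _ = _ := one_mul _
    rw [pow_succ] at hsumj hG0
    linarith
  · intro H hL hC hf
    by_cases hbot : 1 / 2 ≤ ∑ S ∈ H.powerset, (if (1 / 2 : ℝ) ^ lev T 0 < g S then g S else 0)
    · obtain ⟨U, hU, hUH⟩ := hcov0 H hL hbot
      exact ⟨U, mem_union_left _ hU, hUH⟩
    have hrest : 1 / 2 ≤ ∑ j ∈ Js, ∑ S ∈ H.powerset, gcl j S := by
      have e : ∑ S ∈ H.powerset, g S ≤ ∑ S ∈ H.powerset,
          (if (1 / 2 : ℝ) ^ lev T 0 < g S then g S else 0)
          + ∑ j ∈ Js, ∑ S ∈ H.powerset, gcl j S := by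
        rw [sum_comm, ← sum_add_distrib]
        refine sum_le_sum fun S _ => ?_
        have hnn : ∀ j ∈ Js, 0 ≤ gcl j S := fun j _ => h0 j S
        split_ifs with h
        · linarith [sum_nonneg hnn]
        · rcases (hs.nonneg S).eq_or_lt with h' | h'
          · rw [← h']; linarith [sum_nonneg hnn]
          · have hpos : 1 ≤ cls T g S := by
              by_contra hc
              exact h (by simpa [Nat.lt_one_iff.1 (not_le.1 hc)] using cls_gt (T := T) h')
            refine le_trans ?_ (le_add_of_nonneg_left le_rfl)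
            refine le_trans ?_ (single_le_sum hnn (mem_filter.2 ⟨mem_image_of_mem _ (mem_univ S), hpos⟩))
            simp [hgcl]
      linarith [not_le.1 hbot]
    -- choose the sub-family, and with it the scale, class by class
    have hsel : ∀ j, ∃ (s : ℕ) (A : Finset X), s < 4 * T ∧ A ⊆ H ∧
        (∀ i, (1 / 2 : ℝ) ^ i ≤ ∑ S ∈ H.powerset, gcl j S →
          (1 / 2 : ℝ) ^ i ≤ ∑ S ∈ A.powerset, gcl j S) ∧
        (∃ F : Finset (Finset X), F.card ≤ 2 ^ lev T j + 1 ∧
          (∀ S ∈ F, (1 / 2 : ℝ) ^ lev T j ≤ gcl j S) ∧ F.biUnion id = A) ∧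
        middle (gcl j) A (2 ^ kap T j s) (2 ^ kap T j (s + 1))
          ≤ (∑ S ∈ A.powerset, gcl j S) / 4 := by
      intro j
      set F := H.powerset.filter (fun S => gcl j S ≠ 0) with hF
      have hFbig : ∀ S ∈ F, (1 / 2 : ℝ) ^ lev T j ≤ gcl j S := by
        intro S hS
        have hne := (mem_filter.1 hS).2
        simp only [hgcl] at hne ⊢
        split_ifs at hne ⊢ with h
        · exact (h ▸ cls_gt (lt_of_le_of_ne (hs.nonneg S) (Ne.symm hne))).le
        · exact absurd rfl hne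
      obtain ⟨F', hF'sub, hF'card, hF'mass⟩ : ∃ F' ⊆ F, F'.card ≤ 2 ^ lev T j + 1 ∧
          ∀ i, (1 / 2 : ℝ) ^ i ≤ ∑ S ∈ H.powerset, gcl j S →
            (1 / 2 : ℝ) ^ i ≤ ∑ S ∈ F', gcl j S := by
        by_cases hc : F.card ≤ 2 ^ lev T j + 1
        · exact ⟨F, subset_rfl, hc, fun i hi => hi.trans (le_of_eq (sum_filter_ne_zero _).symm)⟩
        · obtain ⟨F', hsub, hcard⟩ := exists_subset_card_eq (le_of_lt (not_le.1 hc))
          refine ⟨F', hsub, hcard.le, fun i _ => ?_⟩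
          refine le_trans (pow_le_one₀ (by norm_num) (by norm_num)) ?_
          have h1 := card_nsmul_le_sum F' (gcl j) _ (fun S hS => hFbig S (hsub hS))
          rw [hcard, nsmul_eq_mul] at h1
          refine le_trans ?_ h1
          push_cast
          rw [one_div, inv_pow, ← div_eq_mul_inv, le_div_iff₀ (by positivity), one_mul]
          linarith
      have hA : F'.biUnion id ⊆ H := biUnion_subset.2 fun S hS =>
        mem_powerset.1 (mem_filter.1 (hF'sub hS)).1
      obtain ⟨s, hs4, hmid⟩ := exists_scale (h0 j) hT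
        (fun S h => hs.card_le S fun hz => h (le_antisymm (hz ▸ hle j S) (h0 j S)))
        (F'.biUnion id) (fun s => 2 ^ kap T j s) (monotone_nat_of_le_succ fun s => by
          refine Nat.pow_le_pow_right (by norm_num) ?_
          rw [kap_succ]; exact Nat.le_mul_of_pos_left _ (by omega))
      refine ⟨s, F'.biUnion id, hs4, hA, fun i hi => (hF'mass i hi).trans ?_,
        ⟨F', hF'card, fun S hS => hFbig S (hF'sub hS), rfl⟩, hmid⟩
      exact sum_le_sum_of_subset_of_nonneg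
        (fun S hS => mem_powerset.2 fun x hx => mem_biUnion.2 ⟨S, hS, hx⟩) fun S _ _ => h0 j S
    choose sc Aj hsc hAH hAmass hAF hAmid using hsel
    have hnum := chainStat_le hs H hC Js sc fun j => (hsc j).le
    have hthe : ∑ j ∈ Js, ∑ S : Finset X, gcl j S * a ^ S.card ≤ 1 / 64 := by
      have h1 : ∑ j ∈ Js, ∑ S : Finset X, gcl j S * a ^ S.card
          ≤ ∑ S : Finset X, g S * (16 * a) ^ S.card := by
        rw [sum_comm]
        refine sum_le_sum fun S _ => ?_
        rw [← sum_mul]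
        refine mul_le_mul ?_ (pow_le_pow_left₀ hs.dens (by linarith [hs.dens]) _)
          (pow_nonneg hs.dens _) (hs.nonneg S)
        simp only [hgcl]
        rw [sum_ite_eq]
        split_ifs <;> simp [hs.nonneg S]
      refine h1.trans (hθ.trans ((half_pow_le (show 6 ≤ 64 * T by omega)).trans (by norm_num)))
    obtain ⟨j, hjJ, hjbig⟩ : ∃ j ∈ Js, canonStat g (gcl j) a ((1 / 2 : ℝ) ^ lam T j (sc j)) H
        + ∑ S : Finset X, gcl j S * a ^ S.card + (1 / 2 : ℝ) ^ j / 8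
        ≤ ∑ S ∈ H.powerset, gcl j S := by
      by_contra hne
      push Not at hne
      have h1 := sum_le_sum (s := Js) fun j hj => (hne j hj).le
      rw [sum_add_distrib, sum_add_distrib, ← sum_div] at h1
      have h2 := sum_half_finset Js fun j hj => (mem_filter.1 hj).2
      linarith
    set fj := ∑ S ∈ H.powerset, gcl j S with hfj
    set num := canonStat g (gcl j) a ((1 / 2 : ℝ) ^ lam T j (sc j)) H with hnumdef
    set th := ∑ S : Finset X, gcl j S * a ^ S.card with hthdef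
    have hnum0 : ∀ j, 0 ≤ canonStat g (gcl j) a ((1 / 2 : ℝ) ^ lam T j (sc j)) H := fun j =>
      sum_nonneg fun S _ => by
        split_ifs
        · exact mul_nonneg (h0 j S) (pow_nonneg hs.dens _)
        · rfl
    have hth0 : ∀ j, 0 ≤ ∑ S : Finset X, gcl j S * a ^ S.card := fun j =>
      sum_nonneg fun S _ => mul_nonneg (h0 j S) (pow_nonneg hs.dens _)
    have hlow : (1 / 2 : ℝ) ^ (j + 4) ≤ fj := by
      have := hnum0 j; have := hth0 j
      have : (1 / 2 : ℝ) ^ (j + 4) = (1 / 2) ^ j / 16 := by rw [pow_add]; ring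
      have : (0:ℝ) ≤ (1 / 2) ^ j := by positivity
      linarith
    have hexi : ∃ i, (1 / 2 : ℝ) ^ i ≤ fj := ⟨j + 4, hlow⟩
    set i := Nat.find hexi with hi
    have hile : i ≤ j + 4 := Nat.find_min' hexi hlow
    have hsmallw : num + th ≤ 2 * (1 / 2 : ℝ) ^ i := by
      rcases Nat.eq_zero_or_pos i with hz | hz
      · have e1 : num ≤ 1 / 64 := le_trans (single_le_sum (fun k _ => hnum0 k) hjJ) hnum
        have e2 : th ≤ 1 / 64 := le_trans (single_le_sum (fun k _ => hth0 k) hjJ) hthe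
        rw [hz, pow_zero]; linarith
      · have h1 := not_le.1 (Nat.find_min hexi (show i - 1 < i by omega))
        have h2 : (1 / 2 : ℝ) ^ (i - 1) = 2 * (1 / 2) ^ i := by
          conv_rhs => rw [show i = (i - 1) + 1 by omega, pow_succ]
          ring
        have : (0:ℝ) ≤ (1 / 2) ^ j := by positivity
        linarith
    have hz : (j, i, sc j) ∈ idx := mem_biUnion.2 ⟨j, hjJ, mem_image.2
      ⟨(i, sc j), mem_product.2 ⟨mem_range.2 (by omega), mem_range.2 (hsc j)⟩, rfl⟩⟩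
    obtain ⟨U, hU, hUA⟩ := hcovz _ hz (Aj j) (hL.mono hs.nonneg hs.dens (hAH j))
      (hAmass j i (Nat.find_spec hexi)) (hAF j) (hAmid j)
      ((add_le_add_left (canonStat_mono (h0 j) hs.dens (hAH j)) _).trans hsmallw)
    exact ⟨U, mem_union_right _ (mem_biUnion.2 ⟨⟨_, hz⟩, mem_attach _ _, hU⟩), hUA.trans (hAH j)⟩

end Vale.Agent.P034.Full
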