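import Vale.Agent.P034.Full.Tools

/-!
One load scale of one class of certificates. `U₀` is a union of certificates through the heavily
loaded elements; the further samples avoid each other off `U₀`. A certificate then meets `U₀` in
its canonical part `hiUnion`, or in a part with negligible link weight.
-/

namespace Vale.Agent.P034.Full

open Finset

variable {X : Type} [Fintype X] [DecidableEq X]

/-- Union of the proper nonempty subsets of `S` whose link is at least `thr`. -/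
noncomputable def hiUnion (g : Finset X → ℝ) (a thr : ℝ) (S : Finset X) : Finset X :=
  (S.powerset.filter (fun U => U.Nonempty ∧ U ≠ S ∧ thr ≤ Phi g a U)).biUnion id

lemma hiUnion_subset (g : Finset X → ℝ) (a thr : ℝ) (S : Finset X) : hiUnion g a thr S ⊆ S :=
  biUnion_subset.2 fun U hU => mem_powerset.1 (mem_filter.1 hU).1

lemma hiUnion_mono (g : Finset X → ℝ) (a : ℝ) {thr thr' : ℝ} (h : thr' ≤ thr) (S : Finset X) :
    hiUnion g a thr S ⊆ hiUnion g a thr' S :=
  biUnion_subset_biUnion_of_subset_left _ fun U hU => by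
    rw [mem_filter] at hU ⊢
    exact ⟨hU.1, hU.2.1, hU.2.2.1, h.trans hU.2.2.2⟩

/-- The canonical statistic of a class at one threshold. -/
noncomputable def canonStat (g gc : Finset X → ℝ) (a thr : ℝ) (U₀ : Finset X) : ℝ :=
  ∑ S : Finset X, if hiUnion g a thr S ⊆ U₀ ∧ hiUnion g a thr S ≠ S ∧ (hiUnion g a thr S).Nonempty
    then gc S * a ^ (S \ hiUnion g a thr S).card else 0

lemma canonStat_mono {g gc : Finset X → ℝ} {a thr : ℝ} (h0 : ∀ S, 0 ≤ gc S) (ha : 0 ≤ a)
    {U V : Finset X} (h : U ⊆ V) : canonStat g gc a thr U ≤ canonStat g gc a thr V := by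
  refine sum_le_sum fun S _ => ?_
  split_ifs with h1 h2
  · exact le_rfl
  · exact absurd ⟨h1.1.trans h, h1.2⟩ h2
  · exact mul_nonneg (h0 S) (pow_nonneg ha _)
  · exact le_rfl

/-- Load of `x` among the sets inside `A`. -/
noncomputable def load (gc : Finset X → ℝ) (A : Finset X) (x : X) : ℝ :=
  ∑ S ∈ A.powerset, if x ∈ S then gc S else 0

/-- Elements of `A` with load at least a `1 / Q` share. -/
noncomputable def heavy (gc : Finset X → ℝ) (A : Finset X) (Q : ℕ) : Finset X :=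
  A.filter (fun x => ∑ S ∈ A.powerset, gc S ≤ Q * load gc A x)

/-- Mass of the sets inside `A` meeting the scale between `Qlo` and `Qhi`. -/
noncomputable def middle (gc : Finset X → ℝ) (A : Finset X) (Qlo Qhi : ℕ) : ℝ :=
  ∑ S ∈ A.powerset, if Disjoint S (heavy gc A Qhi \ heavy gc A Qlo) then 0 else gc S

omit [Fintype X] in
lemma hit_mass {gc : Finset X → ℝ} (h0 : ∀ S, 0 ≤ gc S) (A Y : Finset X) :
    ∑ S ∈ A.powerset, (if Disjoint S Y then 0 else gc S) ≤ ∑ y ∈ Y, load gc A y := by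
  simp only [load]
  rw [sum_comm]
  refine sum_le_sum fun S _ => ?_
  have hnn : ∀ y ∈ Y, (0:ℝ) ≤ if y ∈ S then gc S else 0 := fun y _ => by
    split_ifs <;> simp [h0 S]
  split_ifs with h
  · exact sum_nonneg hnn
  · obtain ⟨y, hyS, hyY⟩ := not_disjoint_iff.1 h
    exact le_trans (by rw [if_pos hyS]) (single_le_sum hnn hyY)

omit [Fintype X] in
lemma card_heavy {gc : Finset X → ℝ} (h0 : ∀ S, 0 ≤ gc S) {A : Finset X} {T Q : ℕ}
    (hT : ∀ S, gc S ≠ 0 → S.card ≤ T) (hm : 0 < ∑ S ∈ A.powerset, gc S) :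
    (heavy gc A Q).card ≤ T * Q := by
  have h1 : ((heavy gc A Q).card : ℝ) * ∑ S ∈ A.powerset, gc S
      ≤ (Q : ℝ) * ∑ x ∈ heavy gc A Q, load gc A x := by
    rw [← nsmul_eq_mul, ← sum_const, mul_sum (heavy gc A Q)]
    exact sum_le_sum fun x hx => (mem_filter.1 hx).2
  have h2 : ∑ x ∈ heavy gc A Q, load gc A x ≤ (T : ℝ) * ∑ S ∈ A.powerset, gc S := by
    simp only [load]
    rw [sum_comm, mul_sum]
    refine sum_le_sum fun S _ => ?_
    rw [← sum_filter, sum_const, nsmul_eq_mul]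
    by_cases hS : gc S = 0
    · simp [hS]
    · refine mul_le_mul_of_nonneg_right (Nat.cast_le.2 ((card_le_card fun x hx => ?_).trans (hT S hS))) (h0 S)
      exact (mem_filter.1 hx).2
  have h3 : ((heavy gc A Q).card : ℝ) * ∑ S ∈ A.powerset, gc S
      ≤ ((T * Q : ℕ) : ℝ) * ∑ S ∈ A.powerset, gc S := by
    push_cast
    nlinarith [mul_le_mul_of_nonneg_left h2 (Nat.cast_nonneg Q : (0:ℝ) ≤ Q)]
  exact_mod_cast le_of_mul_le_mul_right h3 hm

omit [Fintype X] in
lemma light_load {gc : Finset X → ℝ} {A : Finset X} {Q : ℕ} (Y : Finset X) (hY : Y ⊆ A)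
    (hd : Disjoint Y (heavy gc A Q)) :
    (Q : ℝ) * ∑ y ∈ Y, load gc A y ≤ (Y.card : ℝ) * ∑ S ∈ A.powerset, gc S := by
  rw [mul_sum, ← nsmul_eq_mul, ← sum_const]
  refine sum_le_sum fun y hy => le_of_lt (not_le.1 fun h => ?_)
  exact disjoint_left.1 hd hy (mem_filter.2 ⟨hY hy, h⟩)

/-- The sample step at scale `thr` over the base `U₀`. -/
noncomputable def sampleStep (g gc : Finset X → ℝ) (a thr w : ℝ) (T b : ℕ) (U₀ P S : Finset X) :
    ℝ :=
  if U₀ ⊆ P ∧ U₀.card ≤ b * T ∧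
      canonStat g gc a thr U₀ + ∑ S' : Finset X, gc S' * a ^ S'.card ≤ 2 * w ∧
      ¬ S ⊆ U₀ ∧ hiUnion g a thr S ⊆ U₀ ∧ Disjoint (S \ U₀) P
    then gc S * (4 / w) else 0

lemma sampleStep_nonneg {g gc : Finset X → ℝ} {a thr w : ℝ} {T b : ℕ} (h0 : ∀ S, 0 ≤ gc S)
    (hw : 0 < w) (U₀ P S : Finset X) : 0 ≤ sampleStep g gc a thr w T b U₀ P S := by
  rw [sampleStep]
  split_ifs
  · exact mul_nonneg (h0 S) (by positivity)
  · rfl

lemma sample_cost {g gc : Finset X → ℝ} {a r ρ thr w : ℝ} {T b : ℕ} (hs : Sys g a T)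
    (h0 : ∀ S, 0 ≤ gc S) (hle : ∀ S, gc S ≤ g S) (hr : 0 ≤ r) (hρ : 0 ≤ ρ) (hρ1 : ρ ≤ 1 / 64)
    (hrd : r ≤ ρ * a) (hw : 0 < w) (hthr : 0 ≤ thr)
    (hlow : ((b : ℝ) * T + 1) ^ T * thr ≤ w / 32) (U₀ P : Finset X) :
    ∑ S : Finset X, sampleStep g gc a thr w T b U₀ P S * r ^ (S \ P).card ≤ 1 / 4 := by
  have ha := hs.dens
  by_cases hU : U₀ ⊆ P ∧ U₀.card ≤ b * T ∧
      canonStat g gc a thr U₀ + ∑ S' : Finset X, gc S' * a ^ S'.card ≤ 2 * w
  swap
  · rw [sum_eq_zero fun S _ => ?_]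
    · norm_num
    · rw [sampleStep, if_neg (fun h => hU ⟨h.1, h.2.1, h.2.2.1⟩), zero_mul]
  obtain ⟨hUP, hUc, hcan⟩ := hU
  set low : Finset X → ℝ := fun S => ∑ T' ∈ layer T U₀,
    if Phi g a T' < thr ∧ T' ⊆ S then g S * a ^ (S \ T').card else 0 with hlow_def
  have hlownn : ∀ S, 0 ≤ low S := fun S => sum_nonneg fun T' _ => by
    split_ifs
    · exact mul_nonneg (hs.nonneg S) (pow_nonneg ha _)
    · rfl
  have hpt : ∀ S : Finset X, sampleStep g gc a thr w T b U₀ P S * r ^ (S \ P).card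
      ≤ (4 / w) * (ρ * ((if hiUnion g a thr S ⊆ U₀ ∧ hiUnion g a thr S ≠ S ∧
            (hiUnion g a thr S).Nonempty
          then gc S * a ^ (S \ hiUnion g a thr S).card else 0) + gc S * a ^ S.card) + low S) := by
    intro S
    have hrhs : 0 ≤ (4 / w) * (ρ * ((if hiUnion g a thr S ⊆ U₀ ∧ hiUnion g a thr S ≠ S ∧
            (hiUnion g a thr S).Nonempty
          then gc S * a ^ (S \ hiUnion g a thr S).card else 0) + gc S * a ^ S.card) + low S) := by
      have := h0 S
      have := hlownn S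
      split_ifs <;> positivity
    rw [sampleStep]
    by_cases h : U₀ ⊆ P ∧ U₀.card ≤ b * T ∧
      canonStat g gc a thr U₀ + ∑ S' : Finset X, gc S' * a ^ S'.card ≤ 2 * w ∧
      ¬ S ⊆ U₀ ∧ hiUnion g a thr S ⊆ U₀ ∧ Disjoint (S \ U₀) P
    swap
    · rw [if_neg h, zero_mul]; exact hrhs
    rw [if_pos h]
    obtain ⟨-, -, -, hnot, hhi, hdis⟩ := h
    by_cases hgc : gc S = 0
    · rw [hgc]; simpa [hgc] using hrhs
    have hSP : S \ P = S \ U₀ := by
      ext x
      simp only [mem_sdiff]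
      refine ⟨fun hx => ⟨hx.1, fun hxU => hx.2 (hUP hxU)⟩, fun hx => ⟨hx.1, fun hxP => ?_⟩⟩
      exact disjoint_left.1 hdis (mem_sdiff.2 hx) hxP
    rw [hSP]
    have hcard : (S \ U₀).card ≠ 0 := (card_pos.2 (sdiff_nonempty.2 hnot)).ne'
    have hrpow : r ^ (S \ U₀).card ≤ ρ * a ^ (S \ U₀).card := by
      refine (pow_le_pow_left₀ hr hrd _).trans ?_
      rw [mul_pow]
      exact mul_le_mul_of_nonneg_right (pow_le_of_le_one hρ (by linarith) hcard) (pow_nonneg ha _)
    rw [show gc S * (4 / w) * r ^ (S \ U₀).card = (4 / w) * (gc S * r ^ (S \ U₀).card) by ring]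
    refine mul_le_mul_of_nonneg_left ?_ (by positivity)
    have hgS : g S ≠ 0 := fun hz => hgc (le_antisymm (hz ▸ hle S) (h0 S))
    have hI1 : S ∩ U₀ ⊆ S := inter_subset_left
    have hSI : S \ (S ∩ U₀) = S \ U₀ := by ext; simp
    have hpos : gc S * r ^ (S \ U₀).card ≤ ρ * (gc S * a ^ (S \ U₀).card) := by
      calc gc S * r ^ (S \ U₀).card ≤ gc S * (ρ * a ^ (S \ U₀).card) :=
            mul_le_mul_of_nonneg_left hrpow (h0 S)
        _ = _ := by ring
    rcases (S ∩ U₀).eq_empty_or_nonempty with hemp | hne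
    · have hall : S \ U₀ = S := by rw [← hSI, hemp, sdiff_empty]
      rw [hall] at hpos ⊢
      have hh : (0:ℝ) ≤ ρ * (if hiUnion g a thr S ⊆ U₀ ∧ hiUnion g a thr S ≠ S ∧
            (hiUnion g a thr S).Nonempty
          then gc S * a ^ (S \ hiUnion g a thr S).card else 0) := by
        have := h0 S
        split_ifs <;> positivity
      rw [mul_add]
      linarith [hlownn S]
    by_cases hlo : Phi g a (S ∩ U₀) < thr
    · refine le_trans ?_ (le_add_of_nonneg_left (mul_nonneg hρ (add_nonneg ?_ ?_)))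
      · refine le_trans ?_ (single_le_sum (f := fun T' : Finset X =>
          if Phi g a T' < thr ∧ T' ⊆ S then g S * a ^ (S \ T').card else 0) (fun T' _ => ?_)
          (mem_layer.2 ⟨inter_subset_right, (card_le_card hI1).trans (hs.card_le S hgS)⟩ :
            S ∩ U₀ ∈ layer T U₀))
        · rw [if_pos ⟨hlo, hI1⟩, hSI]
          refine hpos.trans ((mul_le_of_le_one_left (mul_nonneg (h0 S) (pow_nonneg ha _))
            (by linarith)).trans ?_)
          exact mul_le_mul_of_nonneg_right (hle S) (pow_nonneg ha _)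
        · split_ifs
          · exact mul_nonneg (hs.nonneg S) (pow_nonneg ha _)
          · rfl
      · have := h0 S
        split_ifs <;> positivity
      · have := h0 S
        positivity
    · have hne' : S ∩ U₀ ≠ S := fun h => hnot (inter_eq_left.1 h)
      have heq : hiUnion g a thr S = S ∩ U₀ := by
        refine subset_antisymm (subset_inter (hiUnion_subset g a thr S) hhi) ?_
        intro x hx
        exact mem_biUnion.2 ⟨S ∩ U₀, mem_filter.2 ⟨mem_powerset.2 hI1, hne, hne', not_lt.1 hlo⟩, hx⟩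
      rw [heq, if_pos ⟨inter_subset_right, hne', hne⟩, hSI, mul_add]
      nlinarith [hlownn S, mul_nonneg hρ (mul_nonneg (h0 S) (pow_nonneg ha S.card))]
  refine (sum_le_sum fun S _ => hpt S).trans ?_
  rw [← mul_sum, sum_add_distrib, ← mul_sum, sum_add_distrib]
  have hlowsum : ∑ S : Finset X, low S ≤ w / 32 := by
    refine le_trans ?_ hlow
    simp only [hlow_def]
    rw [sum_comm]
    calc ∑ T' ∈ layer T U₀, ∑ S : Finset X,
          (if Phi g a T' < thr ∧ T' ⊆ S then g S * a ^ (S \ T').card else 0)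
        ≤ ∑ _T' ∈ layer T U₀, thr := by
          refine sum_le_sum fun T' _ => ?_
          by_cases h : Phi g a T' < thr
          · simp only [h, true_and]
            exact h.le
          · simp [h, hthr]
      _ ≤ _ := by
          rw [sum_const, nsmul_eq_mul]
          refine mul_le_mul_of_nonneg_right ?_ hthr
          exact_mod_cast (card_layer T U₀).trans (Nat.pow_le_pow_left (by omega) T)
  calc (4 / w) * (ρ * (canonStat g gc a thr U₀ + ∑ S' : Finset X, gc S' * a ^ S'.card)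
        + ∑ S : Finset X, low S)
      ≤ (4 / w) * (1 / 64 * (2 * w) + w / 32) := by
        refine mul_le_mul_of_nonneg_left (add_le_add ?_ hlowsum) (by positivity)
        exact (mul_le_mul_of_nonneg_left hcan hρ).trans
          (mul_le_mul_of_nonneg_right hρ1 (by positivity))
    _ = 1 / 4 := by field_simp; ring

/-- Enough mass remains for one more sample. -/
lemma sample_mass {g gc : Finset X → ℝ} {a thr γ w : ℝ} {T b Qlo Qhi q : ℕ} (hs : Sys g a T)
    (h0 : ∀ S, 0 ≤ gc S) (hle : ∀ S, gc S ≤ g S) (hγ : ∀ S, gc S ≤ γ) (hw : 0 < w) (hγ0 : 0 ≤ γ)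
    (hthr : 0 < thr) (hsmall : ((b : ℝ) * T + 1) ^ T * γ ≤ w / 16)
    (hy : 8 * (T : ℝ) ^ 2 * 2 ^ T ≤ Qhi * thr) (hq : 8 * (q : ℝ) * T ≤ Qhi)
    {A U₀ P : Finset X} (hA : Light g a T A) (hm : w ≤ ∑ S ∈ A.powerset, gc S)
    (hmid : middle gc A Qlo Qhi ≤ (∑ S ∈ A.powerset, gc S) / 4)
    (hcan : canonStat g gc a thr A + ∑ S' : Finset X, gc S' * a ^ S'.card ≤ 2 * w)
    (hU : U₀ ⊆ A) (hlo : heavy gc A Qlo ⊆ U₀) (hUc : U₀.card ≤ b * T)
    (hP : U₀ ⊆ P) (hPA : P ⊆ A) (hPc : (P \ U₀).card ≤ q * T) :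
    1 ≤ ∑ S ∈ A.powerset, sampleStep g gc a thr w T b U₀ P S := by
  classical
  set m := ∑ S ∈ A.powerset, gc S with hm_def
  set hiF := A.powerset.filter (fun U => U.Nonempty ∧ U.card < T ∧ thr ≤ Phi g a U) with hhiF
  set Y := ((hiF.biUnion id) \ U₀) \ heavy gc A Qhi with hY_def
  set Z := (P \ U₀) \ heavy gc A Qhi with hZ_def
  have hcanU : canonStat g gc a thr U₀ + ∑ S' : Finset X, gc S' * a ^ S'.card ≤ 2 * w :=
    le_trans (add_le_add_left (canonStat_mono h0 hs.dens hU) _) hcan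
  have hsup : ∀ S, gc S ≠ 0 → S.card = T := fun S h =>
    hs.card_eq S fun hz => h (le_antisymm (hz ▸ hle S) (h0 S))
  have hpt : ∀ S ∈ A.powerset, gc S ≤ (w / 4) * sampleStep g gc a thr w T b U₀ P S
      + (if Disjoint S (heavy gc A Qhi \ heavy gc A Qlo) then 0 else gc S)
      + (if S ⊆ U₀ then gc S else 0)
      + (if Disjoint S Y then 0 else gc S) + (if Disjoint S Z then 0 else gc S) := by
    intro S hS
    have hSA := mem_powerset.1 hS
    have n1 : (0:ℝ) ≤ (w / 4) * sampleStep g gc a thr w T b U₀ P S :=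
      mul_nonneg (by positivity) (sampleStep_nonneg h0 hw _ _ _)
    have hg := h0 S
    by_cases h1 : Disjoint S (heavy gc A Qhi \ heavy gc A Qlo)
    swap
    · rw [if_neg h1]; split_ifs <;> linarith
    rw [if_pos h1]
    by_cases h2 : S ⊆ U₀
    · rw [if_pos h2]; split_ifs <;> linarith
    rw [if_neg h2]
    by_cases h3 : Disjoint S Y
    swap
    · rw [if_neg h3]; split_ifs <;> linarith
    rw [if_pos h3]
    by_cases h4 : Disjoint S Z
    swap
    · rw [if_neg h4]; linarith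
    rw [if_pos h4]
    by_cases hz : gc S = 0
    · linarith
    have houter : ∀ x ∈ S, x ∉ U₀ → x ∉ heavy gc A Qhi := fun x hx hxU hxh =>
      disjoint_left.1 h1 hx (mem_sdiff.2 ⟨hxh, fun h => hxU (hlo h)⟩)
    have hE : hiUnion g a thr S ⊆ U₀ := by
      intro x hx
      by_contra hxU
      have hxS := hiUnion_subset g a thr S hx
      obtain ⟨U, hUm, hxU'⟩ := mem_biUnion.1 hx
      rw [mem_filter, mem_powerset] at hUm
      refine disjoint_left.1 h3 hxS (mem_sdiff.2 ⟨mem_sdiff.2 ⟨mem_biUnion.2 ⟨U, ?_, hxU'⟩, hxU⟩,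
        houter x hxS hxU⟩)
      rw [hhiF, mem_filter, mem_powerset]
      refine ⟨hUm.1.trans hSA, hUm.2.1, ?_, hUm.2.2.2⟩
      rw [← hsup S hz]
      exact card_lt_card (hUm.1.ssubset_of_ne hUm.2.2.1)
    have hD : Disjoint (S \ U₀) P := by
      refine disjoint_left.2 fun x hx hxP => ?_
      rw [mem_sdiff] at hx
      exact disjoint_left.1 h4 hx.1
        (mem_sdiff.2 ⟨mem_sdiff.2 ⟨hxP, hx.2⟩, houter x hx.1 hx.2⟩)
    rw [sampleStep, if_pos ⟨hP, hUc, hcanU, h2, hE, hD⟩]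
    have : w / 4 * (gc S * (4 / w)) = gc S := by field_simp
    linarith
  have hb2 : ∑ S ∈ A.powerset, (if S ⊆ U₀ then gc S else 0) ≤ w / 16 := by
    refine le_trans ?_ hsmall
    calc ∑ S ∈ A.powerset, (if S ⊆ U₀ then gc S else 0)
        ≤ ∑ S ∈ layer T U₀, gc S := by
          rw [← sum_filter, ← sum_filter_ne_zero]
          refine sum_le_sum_of_subset_of_nonneg (fun S hS => ?_) fun S _ _ => h0 S
          rw [mem_filter, mem_filter] at hS
          exact mem_layer.2 ⟨hS.1.2, (hsup S hS.2).le⟩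
      _ ≤ ∑ _S ∈ layer T U₀, γ := sum_le_sum fun S _ => hγ S
      _ ≤ _ := by
          rw [sum_const, nsmul_eq_mul]
          refine mul_le_mul_of_nonneg_right ?_ hγ0
          exact_mod_cast (card_layer T U₀).trans (Nat.pow_le_pow_left (by omega) T)
  have hm0 : 0 ≤ m := sum_nonneg fun S _ => h0 S
  have hYc : (Y.card : ℝ) * thr ≤ (T : ℝ) ^ 2 * 2 ^ T := by
    have hc1 : Y.card ≤ hiF.card * T := by
      refine (card_le_card (sdiff_subset.trans sdiff_subset)).trans ?_
      refine card_biUnion_le_card_mul _ _ _ fun U hU => ?_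
      rw [hhiF, mem_filter] at hU
      exact hU.2.2.1.le
    have hc2 : (hiF.card : ℝ) * thr ≤ (T : ℝ) * 2 ^ T := by
      calc (hiF.card : ℝ) * thr = ∑ _U ∈ hiF, thr := by rw [sum_const, nsmul_eq_mul]
        _ ≤ ∑ U ∈ hiF, Phi g a U := sum_le_sum fun U hU => by
            rw [hhiF, mem_filter] at hU; exact hU.2.2.2
        _ ≤ ∑ U ∈ (Ico 1 T).biUnion (fun t => A.powersetCard t), Phi g a U := by
            refine sum_le_sum_of_subset_of_nonneg (fun U hU => ?_) fun U _ _ =>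
              Phi_nonneg hs.nonneg hs.dens U
            rw [hhiF, mem_filter, mem_powerset] at hU
            exact mem_biUnion.2 ⟨U.card, mem_Ico.2 ⟨hU.2.1.card_pos, hU.2.2.1⟩,
              mem_powersetCard.2 ⟨hU.1, rfl⟩⟩
        _ = ∑ t ∈ Ico 1 T, ∑ U ∈ A.powersetCard t, Phi g a U := by
            refine sum_biUnion fun t _ t' _ hne => ?_
            exact disjoint_left.2 fun U h1 h2 =>
              hne ((mem_powersetCard.1 h1).2.symm.trans (mem_powersetCard.1 h2).2)
        _ ≤ ∑ _t ∈ Ico 1 T, (2:ℝ) ^ T := sum_le_sum fun t ht =>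
            hA t (mem_Ico.1 ht).1 (mem_Ico.1 ht).2
        _ ≤ _ := by
            rw [sum_const, Nat.card_Ico, nsmul_eq_mul]
            refine mul_le_mul_of_nonneg_right ?_ (by positivity)
            exact_mod_cast Nat.sub_le T 1
    have : (Y.card : ℝ) ≤ (hiF.card : ℝ) * T := by exact_mod_cast hc1
    nlinarith [mul_le_mul_of_nonneg_right this hthr.le,
      mul_le_mul_of_nonneg_left hc2 (Nat.cast_nonneg T : (0:ℝ) ≤ T)]
  have hYA : Y ⊆ A := fun x hx => by
    obtain ⟨U, hU, hxU⟩ := mem_biUnion.1 (mem_sdiff.1 (mem_sdiff.1 hx).1).1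
    rw [hhiF, mem_filter, mem_powerset] at hU
    exact hU.1 hxU
  have hy0 := light_load (gc := gc) (A := A) (Q := Qhi) Y hYA sdiff_disjoint
  have hz0 := light_load (gc := gc) (A := A) (Q := Qhi) Z
    (sdiff_subset.trans (sdiff_subset.trans hPA)) sdiff_disjoint
  have hb3 : ∑ y ∈ Y, load gc A y ≤ m / 8 := by
    by_cases hQ : (Qhi : ℝ) = 0
    · have hT0 : (T:ℝ) = 0 := by
        rw [hQ, zero_mul] at hy
        by_contra hne
        have : 0 < (T:ℝ) ^ 2 * 2 ^ T := by positivity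
        linarith
      have : (Y.card:ℝ) * thr ≤ 0 := by simpa [hT0] using hYc
      have : Y = ∅ := card_eq_zero.1 (by exact_mod_cast (le_antisymm
        (nonpos_of_mul_nonpos_left this hthr) (Nat.cast_nonneg _) : (Y.card:ℝ) = 0))
      simp [this]; positivity
    · have hQ' : 0 < (Qhi : ℝ) := lt_of_le_of_ne (Nat.cast_nonneg _) (Ne.symm hQ)
      refine le_of_mul_le_mul_left (hy0.trans ?_) hQ'
      have : (Y.card : ℝ) * 8 ≤ Qhi := by
        refine le_of_mul_le_mul_right ?_ hthr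
        linarith
      nlinarith
  have hZc : (Z.card : ℝ) ≤ (q : ℝ) * T := by
    exact_mod_cast (card_le_card sdiff_subset).trans hPc
  have hb4 : ∑ y ∈ Z, load gc A y ≤ m / 8 := by
    by_cases hQ : (Qhi : ℝ) = 0
    · have : Z = ∅ := card_eq_zero.1 (by
        exact_mod_cast (le_antisymm (by linarith) (Nat.cast_nonneg _) : (Z.card:ℝ) = 0))
      simp [this]; positivity
    · have hQ' : 0 < (Qhi : ℝ) := lt_of_le_of_ne (Nat.cast_nonneg _) (Ne.symm hQ)
      refine le_of_mul_le_mul_left (hz0.trans ?_) hQ'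
      nlinarith
  have hsum := sum_le_sum hpt
  simp only [sum_add_distrib, ← mul_sum] at hsum
  have hY' := (hit_mass h0 A Y).trans hb3
  have hZ' := (hit_mass h0 A Z).trans hb4
  rw [middle] at hmid
  nlinarith

/-- One scale: all tests whose middle scale is light are covered cheaply. -/
theorem level_cover {g gc : Finset X → ℝ} {a r ρ thr γ δ w N : ℝ} {T Qlo Qhi q n : ℕ}
    (hs : Sys g a T) (h0 : ∀ S, 0 ≤ gc S) (hle : ∀ S, gc S ≤ g S) (hγ : ∀ S, gc S ≤ γ)
    (hγ0 : 0 ≤ γ) (hr : 0 ≤ r) (hρ : 0 ≤ ρ) (hρ1 : ρ ≤ 1 / 64) (hrd : r ≤ ρ * a) (hw : 0 < w)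
    (hδ : 0 < δ) (hN : 0 ≤ N) (hthr : 0 < thr)
    (hlow : (((T * Qlo : ℕ) : ℝ) * T + 1) ^ T * thr ≤ w / 32)
    (hsmall : (((T * Qlo : ℕ) : ℝ) * T + 1) ^ T * γ ≤ w / 16)
    (hy : 8 * (T : ℝ) ^ 2 * 2 ^ T ≤ Qhi * thr) (hq : 8 * (q : ℝ) * T ≤ Qhi)
    (tests : Finset (Finset X))
    (hA : ∀ A ∈ tests, Light g a T A ∧ w ≤ ∑ S ∈ A.powerset, gc S ∧
      (∃ F : Finset (Finset X), F.card ≤ n ∧ (∀ S ∈ F, δ ≤ gc S) ∧ F.biUnion id = A) ∧
      middle gc A Qlo Qhi ≤ (∑ S ∈ A.powerset, gc S) / 4 ∧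
      canonStat g gc a thr A + ∑ S' : Finset X, gc S' * a ^ S'.card ≤ 2 * w) :
    ∃ G : Finset (Finset X), (∀ A ∈ tests, Covered G A) ∧
      ∑ U ∈ G, r ^ U.card
        ≤ N * (((((T * Qlo : ℕ) : ℝ) * T + 1) ^ T * 2 ^ T) / δ + 1) ^ (T * Qlo) * (1 / 4) ^ q
          + Real.exp (-N) * (((((n * T : ℕ) : ℝ) + 1) ^ T * 2 ^ T) / δ + 1) ^ n := by
  classical
  set b := T * Qlo with hb
  set Bc : ℝ := ((b : ℝ) * T + 1) ^ T * 2 ^ T with hBc
  set Bt : ℝ := (((n * T : ℕ) : ℝ) + 1) ^ T * 2 ^ T with hBt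
  set Ok : ℝ → Finset X → Prop := fun B P => ∑ S : Finset X, gc S * r ^ (S \ P).card ≤ B with hOk
  have hsup : ∀ S, gc S ≠ 0 → S.card = T := fun S h =>
    hs.card_eq S fun hz => h (le_antisymm (hz ▸ hle S) (h0 S))
  have hra : r ≤ a := hrd.trans (mul_le_of_le_one_left hs.dens (by linarith))
  have hbound : ∀ A ∈ tests, ∀ P, P ⊆ A →
      ∑ S : Finset X, gc S * r ^ (S \ P).card ≤ ((P.card : ℝ) + 1) ^ T * 2 ^ T := by
    intro A hAt P hPA
    refine (split_le h0 hr hra (fun S h => (hsup S h).le) P).trans ?_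
    have h1 := hs.layer_sum (c := 1) le_rfl (hA A hAt).1 hPA
    rw [one_mul, mul_one] at h1
    exact (sum_le_sum fun T' _ => Phi_mono hs.dens hle T').trans h1
  set crude := grow (listStep gc δ (Ok Bc)) ∅ b with hcrude
  have hc0 : ∀ U, 0 ≤ crude U := grow_nonneg (listStep_nonneg _ hδ.le h0) b
  set W : Finset X → ℝ := fun U =>
    N * ∑ U₀ : Finset X, crude U₀ * grow (sampleStep g gc a thr w T b U₀) U₀ q U with hW
  have hW0 : ∀ U, 0 ≤ W U := fun U => mul_nonneg hN (sum_nonneg fun U₀ _ =>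
    mul_nonneg (hc0 U₀) (grow_nonneg (sampleStep_nonneg h0 hw U₀) q U))
  have hNmass : ∀ A ∈ tests, N ≤ ∑ U ∈ A.powerset, W U := by
    intro A hAt
    obtain ⟨hlight, hm, ⟨F, -, hFd, hFU⟩, hmid, hcan⟩ := hA A hAt
    have hm0 : 0 < ∑ S ∈ A.powerset, gc S := hw.trans_le hm
    have hx : ∀ x ∈ heavy gc A Qlo, ∃ S ∈ F, x ∈ S := fun x hx => by
      have := (mem_filter.1 hx).1
      rw [← hFU] at this
      simpa using this
    choose f hf1 hf2 using hx
    set F0 := (heavy gc A Qlo).attach.image (fun x => f x.1 x.2) with hF0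
    have hF0c : F0.card ≤ b :=
      (card_image_le.trans (le_of_eq card_attach)).trans
        (card_heavy h0 (fun S h => (hsup S h).le) hm0)
    have hF0d : ∀ S ∈ F0, δ ≤ gc S := fun S hS => by
      obtain ⟨x, _, rfl⟩ := mem_image.1 hS
      exact hFd _ (hf1 x.1 x.2)
    set U₀ := F0.biUnion id with hU₀
    have hU₀A : U₀ ⊆ A := by
      refine biUnion_subset.2 fun S hS => ?_
      obtain ⟨x, _, rfl⟩ := mem_image.1 hS
      exact (subset_biUnion_of_mem id (hf1 x.1 x.2)).trans hFU.le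
    have hlo : heavy gc A Qlo ⊆ U₀ := fun x hx =>
      mem_biUnion.2 ⟨f x hx, mem_image.2 ⟨⟨x, hx⟩, mem_attach _ _, rfl⟩, hf2 x hx⟩
    have hU₀c : U₀.card ≤ b * T := by
      refine (card_biUnion_le_card_mul _ _ T fun S hS => ?_).trans (Nat.mul_le_mul_right T hF0c)
      exact (hsup S (by linarith [hF0d S hS])).le
    have h1 : 1 ≤ crude U₀ := by
      refine list_mass' hδ h0 F0 hF0c hF0d fun P hP => ?_
      refine (hbound A hAt P (hP.trans hU₀A)).trans ?_
      refine mul_le_mul_of_nonneg_right (pow_le_pow_left₀ (by positivity) ?_ T) (by positivity)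
      have : P.card ≤ b * T := (card_le_card hP).trans hU₀c
      exact add_le_add (by exact_mod_cast this) le_rfl
    have h2 : 1 ≤ ∑ U ∈ A.powerset, grow (sampleStep g gc a thr w T b U₀) U₀ q U := by
      refine le_trans (le_of_eq (one_pow q).symm) ((grow_mass zero_le_one
        (sampleStep_nonneg h0 hw U₀) hU₀A (T := T) (q := q) (fun P S hne => ?_)
        (fun P hP hPA hPc => sample_mass hs h0 hle hγ hw hγ0 hthr hsmall hy hq hlight hm hmid hcan
          hU₀A hlo hU₀c hP hPA hPc) q le_rfl).trans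
        (sum_le_sum_of_subset_of_nonneg (filter_subset _ _)
          fun U _ _ => grow_nonneg (sampleStep_nonneg h0 hw U₀) q U))
      refine (hsup S fun hz => hne ?_).le
      simp [sampleStep, hz]
    rw [hW, ← mul_sum]
    refine le_mul_of_one_le_right hN ?_
    rw [sum_comm]
    refine le_trans ?_ (single_le_sum (fun U₁ _ => sum_nonneg fun U _ =>
      mul_nonneg (hc0 U₁) (grow_nonneg (sampleStep_nonneg h0 hw U₁) q U)) (mem_univ U₀))
    rw [← mul_sum]
    exact one_le_mul_of_one_le_of_one_le h1 h2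
  obtain ⟨G, hG, hsum⟩ := round_cover hr W hW0 tests N hNmass
  refine ⟨G, hG, hsum.trans (add_le_add ?_ (mul_le_mul_of_nonneg_left ?_ (Real.exp_pos _).le))⟩
  · simp only [hW, mul_assoc, ← mul_sum]
    refine mul_le_mul_of_nonneg_left ?_ hN
    simp only [sum_mul]
    rw [sum_comm]
    have hcr := list_cost (Ok := Ok Bc) hr hδ (B := Bc) (by positivity) h0 (fun P hP => hP) b
    calc ∑ U₀ : Finset X, ∑ U : Finset X,
          crude U₀ * grow (sampleStep g gc a thr w T b U₀) U₀ q U * r ^ U.card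
        = ∑ U₀ : Finset X, crude U₀ *
            ∑ U : Finset X, grow (sampleStep g gc a thr w T b U₀) U₀ q U * r ^ U.card := by
          simp only [mul_sum, mul_assoc]
      _ ≤ ∑ U₀ : Finset X, crude U₀ * (r ^ U₀.card * (1 / 4) ^ q) :=
          sum_le_sum fun U₀ _ => mul_le_mul_of_nonneg_left
            (grow_cost hr (by norm_num) (sampleStep_nonneg h0 hw U₀)
              (sample_cost hs h0 hle hr hρ hρ1 hrd hw hthr.le hlow U₀) q) (hc0 U₀)
      _ = (∑ U₀ : Finset X, crude U₀ * r ^ U₀.card) * (1 / 4) ^ q := by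
          rw [sum_mul]; simp only [mul_assoc]
      _ ≤ _ := mul_le_mul_of_nonneg_right hcr (by positivity)
  · refine tests_cost (Ok := Ok Bt) hr hδ (by positivity) h0 (fun P hP => hP) n tests fun A hAt => ?_
    obtain ⟨hlight, -, ⟨F, hFn, hFd, hFU⟩, -, -⟩ := hA A hAt
    refine ⟨fun P hP => (hbound A hAt P hP).trans ?_, F, hFn, hFd, hFU⟩
    refine mul_le_mul_of_nonneg_right (pow_le_pow_left₀ (by positivity) ?_ T) (by positivity)
    have : P.card ≤ n * T := by
      refine (card_le_card hP).trans ?_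
      rw [← hFU]
      refine (card_biUnion_le_card_mul _ _ T fun S hS => ?_).trans (Nat.mul_le_mul_right T hFn)
      exact (hsup S (by linarith [hFd S hS])).le
    exact add_le_add (by exact_mod_cast this) le_rfl

end Vale.Agent.P034.Full
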