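import Vale.Agent.P034.Full.Params

/-!
Reduction of the covering problem to the per-size covers: derived weights move excessive link
statistics to smaller certificate sizes at no extra cost.
-/

namespace Vale.Agent.P034.Full

open Finset

variable {X : Type} [Fintype X] [DecidableEq X]

lemma pow_half_sum_lt (n : ℕ) : ∑ t ∈ range n, (1 / 2 : ℝ) ^ t < 2 := by
  have e : ∑ t ∈ range n, (1 / 2 : ℝ) ^ t = 2 - 2 * (1 / 2) ^ n := by
    induction n with
    | zero => simp
    | succ n ih =>
      rw [sum_range_succ, ih]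
      ring
  have : (0:ℝ) < (1 / 2) ^ n := by positivity
  rw [e]
  linarith

lemma lam_mono {T j s s' : ℕ} (hT : 1 ≤ T) (h : s ≤ s') : lam T j s ≤ lam T j s' := by
  have : kap T j s ≤ kap T j s' := Nat.mul_le_mul_right _ (Nat.pow_le_pow_right (by omega) h)
  simp only [lam]
  gcongr

/-- The canonical parts at distance `τ` are one set at most. -/
lemma chainPart_unique {g : Finset X → ℝ} {a : ℝ} {T : ℕ} (hT : 1 ≤ T) {S : Finset X} {s s' : ℕ}
    (h : (chainPart g a T s S).card = (chainPart g a T s' S).card) :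
    chainPart g a T s S = chainPart g a T s' S := by
  wlog hs : s ≤ s' generalizing s s'
  · exact (this h.symm (le_of_not_ge hs)).symm
  · refine eq_of_subset_of_card_le ?_ h.ge
    exact hiUnion_mono g a
      (pow_le_pow_of_le_one (by norm_num) (by norm_num) (lam_mono hT hs)) S

lemma chainWeight_nonneg {g : Finset X → ℝ} {a : ℝ} (hg : ∀ S, 0 ≤ g S) (ha : 0 ≤ a) (T τ : ℕ)
    (U : Finset X) : 0 ≤ chainWeight g a T τ U := by
  refine sum_nonneg fun S _ => ?_
  split_ifs
  exacts [mul_nonneg (hg S) (pow_nonneg ha _), le_rfl]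

lemma chain_card {g : Finset X → ℝ} {a : ℝ} {T s τ : ℕ} {S U : Finset X} (hS : S.card = T)
    (hU : chainPart g a T s S = U) (hτ : (S \ U).card = τ) : U.card + τ = T := by
  have h : U ⊆ S := hU ▸ hiUnion_subset _ _ _ S
  have := card_le_card h
  rw [card_sdiff_of_subset h] at hτ
  omega

lemma chainWeight_support {g : Finset X → ℝ} {a : ℝ} {T τ : ℕ}
    (hc : ∀ S, g S ≠ 0 → S.card = T) {U : Finset X} (hU : chainWeight g a T τ U ≠ 0) :
    U.card + τ = T := by
  obtain ⟨S, -, hS⟩ := exists_ne_zero_of_sum_ne_zero hU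
  split_ifs at hS with h
  · obtain ⟨s, -, h1, h2, -⟩ := h
    exact chain_card (hc S fun h0 => hS (by simp [h0])) h1 h2
  · exact absurd rfl hS

/-- Cost of the canonical weights. -/
lemma chain_cost {g : Finset X → ℝ} {a p₀ : ℝ} {T τ : ℕ} (hT : 1 ≤ T) (hg : ∀ S, 0 ≤ g S)
    (hc : ∀ S, g S ≠ 0 → S.card = T) (ha : 0 ≤ a) (hp : p₀ = 16 * a) :
    ∑ U : Finset X, chainWeight g a T τ U * p₀ ^ U.card
      ≤ (1 / 16 : ℝ) ^ τ * ∑ S : Finset X, g S * p₀ ^ S.card := by
  have hp0 : 0 ≤ p₀ := by rw [hp]; positivity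
  simp only [chainWeight, sum_mul, mul_sum, ite_mul, zero_mul]
  rw [sum_comm]
  refine sum_le_sum fun S _ => ?_
  rw [← sum_filter]
  have hnn : 0 ≤ (1 / 16 : ℝ) ^ τ * (g S * p₀ ^ S.card) :=
    mul_nonneg (by positivity) (mul_nonneg (hg S) (pow_nonneg hp0 _))
  by_cases h0 : g S = 0
  · simp [h0]
  by_cases hex : ∃ U s, chainPart g a T s S = U ∧ (S \ U).card = τ
  · obtain ⟨U, s, h1, h2⟩ := hex
    have e := chain_card (hc S h0) h1 h2
    have huniq : ∀ U', (∃ s' ∈ range (4 * T + 1),
        chainPart g a T s' S = U' ∧ (S \ U').card = τ ∧ U'.Nonempty) → U' = U := by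
      rintro U' ⟨s', -, h1', h2', -⟩
      subst h1 h1'
      refine chainPart_unique hT ?_
      have e' := chain_card (hc S h0) rfl h2'
      omega
    refine le_trans (sum_le_sum_of_subset_of_nonneg (t := {U}) (fun U' hU' => ?_)
      fun U' _ _ => mul_nonneg (mul_nonneg (hg S) (pow_nonneg ha _)) (pow_nonneg hp0 _)) ?_
    · exact mem_singleton.2 (huniq U' (mem_filter.1 hU').2)
    · rw [sum_singleton, hc S h0, ← e, pow_add, hp, one_div, inv_pow, mul_pow 16 a τ]
      field_simp
      exact le_rfl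
  · rw [sum_eq_zero fun U hU => ?_]
    · exact hnn
    · obtain ⟨s, -, h1, h2, -⟩ := (mem_filter.1 hU).2
      exact absurd ⟨U, s, h1, h2⟩ hex

/-- Cost of the link weights of one size. -/
lemma link_cost {g : Finset X → ℝ} {a p₀ : ℝ} {T t : ℕ} (ht : t ≤ T) (hg : ∀ S, 0 ≤ g S)
    (hc : ∀ S, g S ≠ 0 → S.card = T) (ha : 0 ≤ a) (hp : p₀ = 16 * a) :
    ∑ U ∈ (univ : Finset X).powersetCard t, Phi g a U * p₀ ^ t
      ≤ 2 ^ T * (1 / 16 : ℝ) ^ (T - t) * ∑ S : Finset X, g S * p₀ ^ S.card := by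
  classical
  have hp0 : 0 ≤ p₀ := by rw [hp]; positivity
  simp only [Phi, sum_mul, mul_sum, ite_mul, zero_mul]
  rw [sum_comm]
  refine sum_le_sum fun S _ => ?_
  rw [← sum_filter]
  by_cases h0 : g S = 0
  · simp [h0]
  have hset : ((univ : Finset X).powersetCard t).filter (fun U => U ⊆ S) = S.powersetCard t := by
    ext U
    simp [mem_powersetCard, and_comm]
  rw [hset]
  have hval : ∀ U ∈ S.powersetCard t, g S * a ^ (S \ U).card * p₀ ^ t
      = (1 / 16 : ℝ) ^ (T - t) * (g S * p₀ ^ S.card) := fun U hU => by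
    rw [mem_powersetCard] at hU
    rw [card_sdiff_of_subset hU.1, hU.2, hc S h0,
      show p₀ ^ T = p₀ ^ t * p₀ ^ (T - t) by rw [← pow_add, Nat.add_sub_cancel' ht],
      hp, mul_pow 16 a (T - t), one_div, inv_pow]
    field_simp
  rw [sum_congr rfl hval, sum_const, card_powersetCard, hc S h0, nsmul_eq_mul, mul_assoc]
  refine mul_le_mul_of_nonneg_right ?_
    (mul_nonneg (by positivity) (mul_nonneg (hg S) (pow_nonneg hp0 _)))
  exact_mod_cast Nat.choose_le_two_pow T t

/-- What size `t` receives from the larger sizes. -/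
noncomputable def derived (g : Finset X → ℝ) (G : ℕ → Finset X → ℝ) (a : ℝ) (N t : ℕ)
    (U : Finset X) : ℝ :=
  2 ^ (t + 1) * g U + ∑ T ∈ Ioc t N,
    (Phi (G T) a U / 2 ^ T + chainWeight (G T) a T (T - t) U * 64 * 2 ^ (T - t))

lemma derived_congr (g : Finset X → ℝ) {G G' : ℕ → Finset X → ℝ} (a : ℝ) {N t : ℕ}
    (h : ∀ T, t < T → G T = G' T) (U : Finset X) : derived g G a N t U = derived g G' a N t U := by
  simp only [derived]
  congr 1
  refine sum_congr rfl fun T hT => ?_
  rw [h T (mem_Ioc.1 hT).1]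

/-- Properties of the derived family at one size. -/
structure Good (gt : Finset X → ℝ) (p₀ : ℝ) (t : ℕ) : Prop where
  nonneg : ∀ U, 0 ≤ gt U
  le_one : ∀ U, gt U ≤ 1
  card_eq : ∀ U, gt U ≠ 0 → U.card = t
  cost : ∑ U : Finset X, gt U * p₀ ^ U.card ≤ (1 / 2 : ℝ) ^ (64 * t)

lemma derived_nonneg {g : Finset X → ℝ} {G : ℕ → Finset X → ℝ} {a p₀ : ℝ} {N t : ℕ}
    (hg : ∀ S, 0 ≤ g S) (ha : 0 ≤ a) (hG : ∀ T, t < T → T ≤ N → Good (G T) p₀ T) (U : Finset X) :
    0 ≤ derived g G a N t U := by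
  refine add_nonneg (mul_nonneg (by positivity) (hg U)) (sum_nonneg fun T hT => ?_)
  obtain ⟨h1, h2⟩ := mem_Ioc.1 hT
  exact add_nonneg (div_nonneg (Phi_nonneg (hG T h1 h2).nonneg ha U) (by positivity))
    (mul_nonneg (mul_nonneg (chainWeight_nonneg (hG T h1 h2).nonneg ha _ _ U) (by norm_num))
      (by positivity))

lemma derived_cost {g : Finset X → ℝ} {G : ℕ → Finset X → ℝ} {a p p₀ : ℝ} {N t : ℕ}
    (ht : 1 ≤ t) (hg : ∀ S, 0 ≤ g S) (ha : 0 ≤ a) (hp : 0 ≤ p) (hpa : p₀ = 16 * a)
    (hpp : p₀ = p / 2 ^ 66) (hcost : ∑ S : Finset X, g S * p ^ S.card ≤ 1 / 2)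
    (hG : ∀ T, t < T → T ≤ N → Good (G T) p₀ T) :
    ∑ U ∈ (univ : Finset X).powersetCard t, derived g G a N t U * p₀ ^ t
      ≤ (1 / 2 : ℝ) ^ (64 * t) := by
  have hp0 : 0 ≤ p₀ := by rw [hpp]; positivity
  simp only [derived, add_mul, sum_mul, sum_add_distrib]
  have horig : ∑ U ∈ (univ : Finset X).powersetCard t, 2 ^ (t + 1) * g U * p₀ ^ t
      ≤ (1 / 2 : ℝ) ^ (64 * t) / 2 := by
    have h1 : ∑ U ∈ (univ : Finset X).powersetCard t, g U * p ^ t ≤ 1 / 2 := by
      refine le_trans (le_of_eq (sum_congr rfl fun U hU => ?_))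
        ((sum_le_sum_of_subset_of_nonneg (subset_univ _) fun U _ _ =>
          mul_nonneg (hg U) (pow_nonneg hp _)).trans hcost)
      rw [(mem_powersetCard.1 hU).2]
    have h2 : ∑ U ∈ (univ : Finset X).powersetCard t, 2 ^ (t + 1) * g U * p₀ ^ t
        = 2 ^ (t + 1) / (2 ^ 66) ^ t * ∑ U ∈ (univ : Finset X).powersetCard t, g U * p ^ t := by
      rw [mul_sum]
      refine sum_congr rfl fun U _ => ?_
      rw [hpp, div_pow]
      ring
    rw [h2]
    refine (mul_le_mul_of_nonneg_left h1 (by positivity)).trans ?_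
    have h3 : (2:ℝ) ^ 1 ≤ 2 ^ t := pow_le_pow_right₀ (by norm_num) ht
    rw [pow_succ, one_div, inv_pow, ← pow_mul, show 66 * t = 64 * t + (t + t) by ring, pow_add,
      pow_add]
    field_simp
    linarith
  have hder : ∀ T ∈ Ioc t N,
      ∑ U ∈ (univ : Finset X).powersetCard t, Phi (G T) a U / 2 ^ T * p₀ ^ t +
      ∑ U ∈ (univ : Finset X).powersetCard t,
          chainWeight (G T) a T (T - t) U * 64 * 2 ^ (T - t) * p₀ ^ t
        ≤ (1 / 2 : ℝ) ^ (64 * t) * (1 / 4) ^ (T - t) := by
    intro T hT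
    obtain ⟨h1, h2⟩ := mem_Ioc.1 hT
    have hGT := hG T h1 h2
    obtain ⟨τ, hτ⟩ : ∃ τ, τ = T - t := ⟨_, rfl⟩
    have hTτ : T = t + τ := by omega
    have hτ1 : 1 ≤ τ := by omega
    rw [← hτ]
    have hD1 : ∑ U ∈ (univ : Finset X).powersetCard t, Phi (G T) a U / 2 ^ T * p₀ ^ t
        ≤ (1 / 16 : ℝ) ^ τ * (1 / 2) ^ (64 * T) := by
      have := (link_cost h1.le hGT.nonneg hGT.card_eq ha hpa).trans
        (mul_le_mul_of_nonneg_left hGT.cost (by positivity))
      rw [← hτ, mul_assoc] at this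
      have e : ∑ U ∈ (univ : Finset X).powersetCard t, Phi (G T) a U / 2 ^ T * p₀ ^ t
          = (∑ U ∈ (univ : Finset X).powersetCard t, Phi (G T) a U * p₀ ^ t) / 2 ^ T := by
        rw [sum_div]
        exact sum_congr rfl fun U _ => by ring
      rw [e, div_le_iff₀ (by positivity)]
      exact this.trans (le_of_eq (by ring))
    have hD2 : ∑ U ∈ (univ : Finset X).powersetCard t,
        chainWeight (G T) a T τ U * 64 * 2 ^ τ * p₀ ^ t
        ≤ 64 * 2 ^ τ * ((1 / 16 : ℝ) ^ τ * (1 / 2) ^ (64 * T)) := by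
      refine le_trans ?_ (mul_le_mul_of_nonneg_left
        ((chain_cost (τ := τ) (by omega) hGT.nonneg hGT.card_eq ha hpa).trans
          (mul_le_mul_of_nonneg_left hGT.cost (by positivity))) (by positivity))
      rw [mul_sum]
      refine le_trans (le_of_eq (sum_congr rfl fun U hU => ?_))
        (sum_le_sum_of_subset_of_nonneg (subset_univ _) fun U _ _ =>
          mul_nonneg (by positivity)
            (mul_nonneg (chainWeight_nonneg hGT.nonneg ha _ _ U) (pow_nonneg hp0 _)))
      rw [(mem_powersetCard.1 hU).2]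
      ring
    refine (add_le_add hD1 hD2).trans ?_
    rw [hTτ, mul_add, pow_add, pow_mul (1 / 2 : ℝ) 64 τ]
    have e1 : (1 / 16 : ℝ) ^ τ * ((1 / 2) ^ 64) ^ τ ≤ (1 / 4) ^ τ / 256 := by
      rw [← mul_pow]
      calc ((1 / 16 : ℝ) * (1 / 2) ^ 64) ^ τ ≤ ((1 / 4) * (1 / 256)) ^ τ :=
            pow_le_pow_left₀ (by positivity) (by norm_num) _
        _ ≤ (1 / 4) ^ τ * (1 / 256) := by
            rw [mul_pow]
            exact mul_le_mul_of_nonneg_left
              (pow_le_of_le_one (by norm_num) (by norm_num) (by omega)) (by positivity)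
        _ = _ := by ring
    have e2 : (2 : ℝ) ^ τ * ((1 / 16 : ℝ) ^ τ * ((1 / 2) ^ 64) ^ τ) ≤ (1 / 4) ^ τ / 256 := by
      rw [← mul_pow, ← mul_pow]
      calc ((2 : ℝ) * ((1 / 16) * (1 / 2) ^ 64)) ^ τ ≤ ((1 / 4) * (1 / 256)) ^ τ :=
            pow_le_pow_left₀ (by positivity) (by norm_num) _
        _ ≤ (1 / 4) ^ τ * (1 / 256) := by
            rw [mul_pow]
            exact mul_le_mul_of_nonneg_left
              (pow_le_of_le_one (by norm_num) (by norm_num) (by omega)) (by positivity)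
        _ = _ := by ring
    have hpos : (0:ℝ) ≤ (1 / 2) ^ (64 * t) := by positivity
    nlinarith [mul_le_mul_of_nonneg_left e1 hpos, mul_le_mul_of_nonneg_left e2 hpos,
      mul_nonneg hpos (pow_nonneg (by norm_num : (0:ℝ) ≤ 1 / 4) τ)]
  rw [sum_comm (f := fun U T => Phi (G T) a U / 2 ^ T * p₀ ^ t),
    sum_comm (f := fun U T => chainWeight (G T) a T (T - t) U * 64 * 2 ^ (T - t) * p₀ ^ t),
    ← sum_add_distrib]
  refine (add_le_add horig (sum_le_sum hder)).trans ?_
  rw [← mul_sum]
  have hgeo : ∀ n, ∑ T ∈ Ioc t n, (1 / 4 : ℝ) ^ (T - t) ≤ 1 / 2 := fun n => by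
    have : ∀ m, ∑ T ∈ Ioc t (t + m), (1 / 4 : ℝ) ^ (T - t) = (1 - (1 / 4) ^ m) / 3 := fun m => by
      induction m with
      | zero => simp
      | succ m ih =>
        rw [← add_assoc, sum_Ioc_succ_top (by omega), ih, show t + m + 1 - t = m + 1 by omega]
        ring
    rcases le_total n t with h | h
    · rw [Ioc_eq_empty_of_le h, sum_empty]; norm_num
    · obtain ⟨m, rfl⟩ := Nat.exists_eq_add_of_le h
      have h4 : (0:ℝ) ≤ (1 / 4) ^ m := by positivity
      rw [this m]
      linarith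
  have hpos : (0:ℝ) ≤ (1 / 2) ^ (64 * t) := by positivity
  nlinarith [hgeo N]

/-- The derived families, built from the largest size down. -/
lemma exists_family {g : Finset X → ℝ} {a p p₀ : ℝ} (N : ℕ) (hg : ∀ S, 0 ≤ g S) (ha : 0 ≤ a)
    (hp : 0 ≤ p) (hpa : p₀ = 16 * a) (hpp : p₀ = p / 2 ^ 66)
    (hcost : ∑ S : Finset X, g S * p ^ S.card ≤ 1 / 2) (k : ℕ) :
    ∃ G : ℕ → Finset X → ℝ, ∀ t, 1 ≤ t → t ≤ N → N < t + k →
      Good (G t) p₀ t ∧ ∀ U : Finset X, U.card = t → min 1 (derived g G a N t U) ≤ G t U := by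
  induction k with
  | zero => exact ⟨fun _ _ => 0, fun t _ h1 h2 => absurd h2 (by omega)⟩
  | succ k ih =>
    obtain ⟨G, hG⟩ := ih
    classical
    set t₀ := N - k with ht₀
    by_cases hk : 1 ≤ t₀
    swap
    · exact ⟨G, fun t h1 h2 h3 => hG t h1 h2 (by omega)⟩
    set v : Finset X → ℝ := fun U => if U.card = t₀ then min 1 (derived g G a N t₀ U) else 0
      with hv
    refine ⟨Function.update G t₀ v, fun t h1 h2 h3 => ?_⟩
    have hG' : ∀ T, t₀ < T → T ≤ N → Good (G T) p₀ T := fun T hT hT' =>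
      (hG T (by omega) hT' (by omega)).1
    have hsame : ∀ t' T, t₀ ≤ t' → t' < T → Function.update G t₀ v T = G T := fun t' T hh hh' =>
      Function.update_of_ne (by omega) _ _
    by_cases htt : t = t₀
    · subst htt
      rw [Function.update_self]
      refine ⟨⟨fun U => ?_, fun U => ?_, fun U hU => ?_, ?_⟩, fun U hU => ?_⟩
      · simp only [hv]
        split_ifs
        exacts [le_min zero_le_one (derived_nonneg hg ha hG' U), le_rfl]
      · simp only [hv]
        split_ifs
        exacts [min_le_left _ _, zero_le_one]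
      · by_contra hne
        exact hU (by simp only [hv, if_neg hne])
      · have hp0 : 0 ≤ p₀ := by rw [hpp]; positivity
        refine le_trans (le_trans (b := ∑ U ∈ (univ : Finset X).powersetCard t₀,
            v U * p₀ ^ U.card) (le_of_eq ?_) (sum_le_sum fun U hU => ?_))
          (derived_cost hk hg ha hp hpa hpp hcost hG')
        · rw [← univ.sum_filter_add_sum_filter_not (fun U : Finset X => U.card = t₀),
            sum_eq_zero (s := univ.filter fun U : Finset X => ¬U.card = t₀) fun U hU => by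
              simp only [hv, if_neg (mem_filter.1 hU).2, zero_mul], add_zero]
          refine sum_congr ?_ fun _ _ => rfl
          ext U
          simp
        · rw [(mem_powersetCard.1 hU).2]
          simp only [hv, if_pos (mem_powersetCard.1 hU).2]
          exact mul_le_mul_of_nonneg_right (min_le_right _ _) (pow_nonneg hp0 _)
      · simp only [hv, if_pos hU]
        rw [derived_congr g a (fun T hT => hsame t₀ T le_rfl hT) U]
    · obtain ⟨h4, h5⟩ := hG t h1 h2 (by omega)
      rw [Function.update_of_ne htt]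
      refine ⟨h4, fun U hU => ?_⟩
      rw [derived_congr g a (fun T hT => hsame t T (by omega) hT) U]
      exact h5 U hU

omit [Fintype X] [DecidableEq X] in
lemma one_le_sum_of_min {s : Finset (Finset X)} {v w : Finset X → ℝ} (hv : ∀ U ∈ s, 0 ≤ v U)
    (hw : ∀ U ∈ s, min 1 (w U) ≤ v U) (h : 1 ≤ ∑ U ∈ s, w U) : 1 ≤ ∑ U ∈ s, v U := by
  by_cases hbig : ∃ U ∈ s, 1 ≤ w U
  · obtain ⟨U, hU, h1⟩ := hbig
    exact le_trans (le_trans (le_of_eq (min_eq_left h1).symm) (hw U hU)) (single_le_sum hv hU)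
  · push Not at hbig
    refine h.trans (sum_le_sum fun U hU => ?_)
    have := hw U hU
    rwa [min_eq_right (hbig U hU).le] at this

omit [Fintype X] [DecidableEq X] in
lemma sum_powerset_card {gt : Finset X → ℝ} {t : ℕ} (hc : ∀ U, gt U ≠ 0 → U.card = t)
    (H : Finset X) : ∑ U ∈ H.powerset, gt U = ∑ U ∈ H.powersetCard t, gt U := by
  refine (sum_subset (fun U hU => ?_) fun U hU hU' => ?_).symm
  · exact mem_powerset.2 (mem_powersetCard.1 hU).1
  · by_contra h
    exact hU' (mem_powersetCard.2 ⟨mem_powerset.1 hU, hc U h⟩)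

omit [Fintype X] in
lemma sum_biUnion_le {ι : Type*} (s : Finset ι) (t : ι → Finset (Finset X)) {f : Finset X → ℝ}
    (hf : ∀ U, 0 ≤ f U) : ∑ U ∈ s.biUnion t, f U ≤ ∑ i ∈ s, ∑ U ∈ t i, f U := by
  classical
  induction s using Finset.induction_on with
  | empty => simp
  | insert i s hi ih =>
    rw [biUnion_insert, sum_insert hi]
    have := sum_union_inter (s₁ := t i) (s₂ := s.biUnion t) (f := f)
    have h0 : 0 ≤ ∑ U ∈ t i ∩ s.biUnion t, f U := sum_nonneg fun U _ => hf U
    linarith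

/-- Per-size covers of the light sets give a cover of everything. -/
theorem small_of_lightCover (hLC : LightCover) :
    ∀ (X : Type) [Fintype X] [DecidableEq X] (F : Set (Finset X)) (g : Finset X → ℝ) (p : ℝ),
      0 ≤ p → p ≤ 1 → (∀ S, 0 ≤ g S) → (∀ H ∈ F, 1 ≤ ∑ S ∈ H.powerset, g S) →
      ∑ S : Finset X, g S * p ^ S.card ≤ 1 / 2 →
      ∃ G : Finset (Finset X), (∀ H ∈ F, Covered G H) ∧
        ∑ U ∈ G, (p / 2 ^ 80) ^ U.card ≤ 1 / 2 := by
  intro X _ _ F g p hp _ hg hcov hcost
  classical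
  set p₀ : ℝ := p / 2 ^ 66 with hpp
  set a : ℝ := p₀ / 16 with ha'
  have hp0 : 0 ≤ p₀ := by positivity
  have ha : 0 ≤ a := by positivity
  have hpa : p₀ = 16 * a := by rw [ha']; ring
  set N := Fintype.card X
  obtain ⟨G, hG⟩ := exists_family N hg ha hp hpa hpp hcost N
  have hgood : ∀ t, 1 ≤ t → t ≤ N → Good (G t) p₀ t ∧
      ∀ U : Finset X, U.card = t → min 1 (derived g G a N t U) ≤ G t U :=
    fun t h1 h2 => hG t h1 h2 (by omega)
  have hnn : ∀ t T : ℕ, t < T → T ≤ N → Good (G T) p₀ T := fun t T h1 h2 =>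
    (hgood T (by omega) h2).1
  -- the cover of each size
  have hLC' : ∀ T ∈ Icc 1 N, ∃ C : Finset (Finset X),
      ∑ U ∈ C, (a / 256) ^ U.card ≤ (1 / 2 : ℝ) ^ (T + 7) ∧
      ∀ H, Light (G T) a T H → CanonLight (G T) a T H → 1 ≤ ∑ S ∈ H.powerset, G T S →
        Covered C H := by
    intro T hT
    obtain ⟨h1, h2⟩ := mem_Icc.1 hT
    obtain ⟨⟨h3, h4, h5, h6⟩, -⟩ := hgood T h1 h2
    refine hLC X (G T) a (a / 256) T h1 ⟨h3, h4, h5, ha, ?_⟩ (by rwa [← hpa]) (by positivity)
      le_rfl
    refine le_trans (le_trans (sum_le_sum fun S _ => ?_) h6)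
      (pow_le_one₀ (by norm_num) (by norm_num))
    exact mul_le_mul_of_nonneg_left (pow_le_pow_left₀ ha (by linarith) _) (h3 S)
  choose! C hC using hLC'
  refine ⟨(Icc 1 N).biUnion C, fun H hH => ?_, ?_⟩
  · -- some size carries mass one
    have hex : ∃ T, 1 ≤ T ∧ T ≤ N ∧ 1 ≤ ∑ U ∈ H.powerset, G T U := by
      by_contra hno
      push Not at hno
      have hsmall : ∀ t ∈ range N,
          ∑ U ∈ H.powersetCard (t + 1), g U ≤ (1 / 2 : ℝ) ^ (t + 2) := by
        intro t ht
        rw [mem_range] at ht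
        obtain ⟨hg1, hg2⟩ := hgood (t + 1) (by omega) (by omega)
        by_contra hlt
        push Not at hlt
        refine absurd (hno (t + 1) (by omega) (by omega)) (not_lt.2 ?_)
        rw [sum_powerset_card hg1.card_eq]
        refine one_le_sum_of_min (fun U _ => hg1.nonneg U)
          (w := fun U => 2 ^ (t + 1 + 1) * g U) (fun U hU => ?_) ?_
        · refine le_trans (min_le_min le_rfl ?_) (hg2 U (mem_powersetCard.1 hU).2)
          refine le_add_of_nonneg_right (sum_nonneg fun T hT => ?_)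
          obtain ⟨h1, h2⟩ := mem_Ioc.1 hT
          exact add_nonneg (div_nonneg (Phi_nonneg (hnn _ T h1 h2).nonneg ha U) (by positivity))
            (mul_nonneg (mul_nonneg (chainWeight_nonneg (hnn _ T h1 h2).nonneg ha _ _ U)
              (by norm_num)) (by positivity))
        · rw [← mul_sum]
          refine le_trans (le_of_eq ?_) (mul_le_mul_of_nonneg_left hlt.le (by positivity))
          rw [one_div, inv_pow]
          field_simp
      have h0 : g ∅ ≤ 1 / 2 := by
        refine le_trans ?_ hcost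
        refine le_trans (le_of_eq (by simp)) (single_le_sum
          (f := fun S : Finset X => g S * p ^ S.card)
          (fun S _ => mul_nonneg (hg S) (pow_nonneg hp _)) (mem_univ ∅))
      have hsum : ∑ U ∈ H.powerset, g U ≤ g ∅ + ∑ t ∈ range N, (1 / 2 : ℝ) ^ (t + 2) := by
        have e : ∑ U ∈ H.powerset, g U = ∑ t ∈ range (N + 1), ∑ U ∈ H.powersetCard t, g U := by
          rw [← sum_fiberwise_of_maps_to (s := H.powerset) (g := Finset.card)
            (t := range (N + 1)) (fun U _ => mem_range.2 (Nat.lt_succ_of_le (card_le_univ U)))]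
          refine sum_congr rfl fun t _ => sum_congr ?_ fun _ _ => rfl
          ext U
          simp [mem_powersetCard]
        rw [e, sum_range_succ']
        simp only [powersetCard_zero, sum_singleton]
        rw [add_comm]
        exact add_le_add_right (sum_le_sum hsmall) _
      have h2 : ∑ t ∈ range N, (1 / 2 : ℝ) ^ (t + 2) = (∑ t ∈ range N, (1 / 2 : ℝ) ^ t) / 4 := by
        rw [sum_div]
        exact sum_congr rfl fun t _ => by ring
      have := hcov H hH
      have := pow_half_sum_lt N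
      linarith
    set T := Nat.find hex with hTdef
    obtain ⟨h1, h2, hmass⟩ := Nat.find_spec hex
    have hmin : ∀ t, 1 ≤ t → t < T → ∑ U ∈ H.powerset, G t U < 1 := fun t ht htT =>
      not_le.1 fun h => Nat.find_min hex htT ⟨ht, by omega, h⟩
    -- an excessive statistic would give mass one at a smaller size
    have hdown : ∀ t, 1 ≤ t → t < T → ∀ w : Finset X → ℝ,
        (∀ U ∈ H.powersetCard t, w U ≤ Phi (G T) a U / 2 ^ T
          + chainWeight (G T) a T (T - t) U * 64 * 2 ^ (T - t)) →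
        ∑ U ∈ H.powersetCard t, w U < 1 := by
      intro t ht htT w hw
      by_contra hge
      push Not at hge
      obtain ⟨hg1, hg2⟩ := hgood t ht (by omega)
      have := hmin t ht htT
      rw [sum_powerset_card hg1.card_eq] at this
      refine absurd this (not_lt.2 (one_le_sum_of_min (fun U _ => hg1.nonneg U) (fun U hU => ?_)
        hge))
      refine le_trans (min_le_min le_rfl ((hw U hU).trans ?_)) (hg2 U (mem_powersetCard.1 hU).2)
      refine le_add_of_nonneg_of_le (mul_nonneg (by positivity) (hg U)) ?_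
      refine single_le_sum (f := fun T' => Phi (G T') a U / 2 ^ T'
        + chainWeight (G T') a T' (T' - t) U * 64 * 2 ^ (T' - t)) (fun T' hT' => ?_)
        (mem_Ioc.2 ⟨htT, h2⟩)
      obtain ⟨h1', h2'⟩ := mem_Ioc.1 hT'
      exact add_nonneg (div_nonneg (Phi_nonneg (hnn _ T' h1' h2').nonneg ha U) (by positivity))
        (mul_nonneg (mul_nonneg (chainWeight_nonneg (hnn _ T' h1' h2').nonneg ha _ _ U)
          (by norm_num)) (by positivity))
    obtain ⟨hGT, -⟩ := hgood T h1 h2
    have hLight : Light (G T) a T H := fun t ht htT => by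
      have := hdown t ht htT (fun U => Phi (G T) a U / 2 ^ T) fun U _ =>
        le_add_of_nonneg_right (mul_nonneg
          (mul_nonneg (chainWeight_nonneg hGT.nonneg ha _ _ U) (by norm_num)) (by positivity))
      rw [← sum_div, div_lt_one (by positivity)] at this
      exact this.le
    have hCanon : CanonLight (G T) a T H := fun τ hτ hτT => by
      have := hdown (T - τ) (by omega) (by omega)
        (fun U => chainWeight (G T) a T τ U * 64 * 2 ^ τ) fun U _ => by
          rw [show T - (T - τ) = τ by omega]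
          exact le_add_of_nonneg_left (div_nonneg (Phi_nonneg hGT.nonneg ha U) (by positivity))
      rw [sum_powerset_card (fun U hU => by
        have := chainWeight_support hGT.card_eq hU
        omega : ∀ U, chainWeight (G T) a T τ U ≠ 0 → U.card = T - τ) H]
      rw [← sum_mul, ← sum_mul] at this
      rw [le_div_iff₀ (by norm_num), one_div, inv_pow, inv_eq_one_div,
        le_div_iff₀ (by positivity)]
      linarith
    obtain ⟨U, hU, hUH⟩ := (hC T (mem_Icc.2 ⟨h1, h2⟩)).2 H hLight hCanon hmass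
    exact ⟨U, mem_biUnion.2 ⟨T, mem_Icc.2 ⟨h1, h2⟩, hU⟩, hUH⟩
  · have hle : p / 2 ^ 80 ≤ a / 256 := by
      have : a / 256 = p / 2 ^ 78 := by rw [ha', hpp]; ring
      rw [this]
      exact div_le_div_of_nonneg_left hp (by positivity) (by norm_num)
    refine (sum_le_sum fun U _ =>
      pow_le_pow_left₀ (div_nonneg hp (pow_nonneg zero_le_two _)) hle _).trans ?_
    refine (sum_biUnion_le _ _ ?_).trans ((sum_le_sum fun T hT => (hC T hT).1).trans ?_)
    · exact fun U => pow_nonneg (by positivity) _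
    · have e : ∀ T : ℕ, (1 / 2 : ℝ) ^ (T + 7) = (1 / 2) ^ T * (1 / 2) ^ 7 := fun T => pow_add _ _ _
      rw [sum_congr rfl fun T _ => e T, ← sum_mul]
      have : ∑ T ∈ Icc 1 N, (1 / 2 : ℝ) ^ T ≤ 2 :=
        le_trans (sum_le_sum_of_subset_of_nonneg
          (fun T hT => mem_range.2 (Nat.lt_succ_of_le (mem_Icc.1 hT).2))
          fun T _ _ => by positivity) (pow_half_sum_lt (N + 1)).le
      linarith

end Vale.Agent.P034.Full
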