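import Vale.Agent.P034.Full.Tools

/-!
Two pools. `step_cover` takes unions of `q` certificates, each bringing a new element; it covers
the tests in which no small prefix carries much link weight. `single_cover` takes single sets.
-/

namespace Vale.Agent.P034.Full

open Finset

variable {X : Type} [Fintype X] [DecidableEq X]

/-- `A` is a union of at most `n` sets of `h`-weight at least `δ`, and carries mass at least `w`. -/
def IsTest (h : Finset X → ℝ) (δ w : ℝ) (n : ℕ) (A : Finset X) : Prop :=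
  (∃ F : Finset (Finset X), F.card ≤ n ∧ (∀ S ∈ F, δ ≤ h S) ∧ F.biUnion id = A) ∧
    w ≤ ∑ S ∈ A.powerset, h S

theorem step_cover {h : Finset X → ℝ} {r d ρ w δ B N : ℝ} {T q n : ℕ}
    (h0 : ∀ S, 0 ≤ h S) (hT : ∀ S, h S ≠ 0 → S.card ≤ T) (hr : 0 ≤ r) (hd : 0 ≤ d)
    (hρ : 0 ≤ ρ) (hρ1 : ρ ≤ 1 / 2) (hrd : r ≤ ρ * d) (hw : 0 < w) (hδ : 0 < δ) (hB : 0 ≤ B)
    (hN : 0 ≤ N) (tests : Finset (Finset X))
    (hA : ∀ A ∈ tests, IsTest h δ w n A)
    (hbd : ∀ A ∈ tests, ∀ P, P ⊆ A → ∑ S : Finset X, h S * r ^ (S \ P).card ≤ B)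
    (hgood : ∀ A ∈ tests, ∀ P, P ⊆ A → P.card ≤ q * T →
      ∑ T' ∈ layer T P, Phi h d T' ≤ w / 4) :
    ∃ G : Finset (Finset X), (∀ A ∈ tests, Covered G A) ∧
      ∑ U ∈ G, r ^ U.card ≤ N * (1 / 4) ^ q + Real.exp (-N) * (B / δ + 1) ^ n := by
  classical
  set hq : Finset X → Finset X → ℝ := fun P S =>
    if ∑ T' ∈ layer T P, Phi h d T' ≤ w / 4 ∧ ¬ S ⊆ P then h S * (2 / w) else 0 with hq_def
  have hq0 : ∀ P S, 0 ≤ hq P S := fun P S => by
    simp only [hq_def]
    split_ifs
    · exact mul_nonneg (h0 S) (by positivity)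
    · rfl
  have hcost : ∀ P, ∑ S : Finset X, hq P S * r ^ (S \ P).card ≤ 1 / 4 := by
    intro P
    by_cases hP : ∑ T' ∈ layer T P, Phi h d T' ≤ w / 4
    · calc ∑ S : Finset X, hq P S * r ^ (S \ P).card
          = (2 / w) * ∑ S : Finset X, (if S ⊆ P then 0 else h S * r ^ (S \ P).card) := by
            rw [mul_sum]
            refine sum_congr rfl fun S _ => ?_
            by_cases hS : S ⊆ P
            · simp [hq_def, hS]
            · simp [hq_def, hS, hP]; ring
        _ ≤ (2 / w) * (ρ * (w / 4)) := by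
            refine mul_le_mul_of_nonneg_left
              ((split_new h0 hr hd hρ (by linarith) hrd hT P).trans
                (mul_le_mul_of_nonneg_left hP hρ)) (by positivity)
        _ = ρ / 2 := by field_simp; ring
        _ ≤ 1 / 4 := by linarith
    · rw [sum_eq_zero fun S _ => by simp [hq_def, hP]]
      norm_num
  have hNmass : ∀ A ∈ tests, N ≤ ∑ U ∈ A.powerset, (fun U => N * grow hq ∅ q U) U := by
    intro A hAt
    simp only []
    rw [← mul_sum]
    refine le_mul_of_one_le_right hN ?_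
    refine le_trans ?_ ((grow_mass (h := hq) (P₀ := (∅ : Finset X)) zero_le_one hq0
      (empty_subset A) (T := T) (q := q) (fun P S hne => hT S fun hz => hne (by simp [hq_def, hz]))
      (fun P _ hPA hPc => ?_) q le_rfl).trans
        (sum_le_sum_of_subset_of_nonneg (filter_subset _ _) fun U _ _ => grow_nonneg hq0 q U))
    · simp
    · rw [sdiff_empty] at hPc
      have hP := hgood A hAt P hPA hPc
      have hin : ∑ S ∈ P.powerset, h S ≤ w / 4 := by
        refine le_trans ?_ hP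
        calc ∑ S ∈ P.powerset, h S = ∑ S ∈ layer T P, h S := by
              refine (sum_subset (filter_subset _ _) fun S hS hS' => ?_).symm
              by_contra hne
              exact hS' (mem_layer.2 ⟨mem_powerset.1 hS, hT S hne⟩)
          _ ≤ _ := sum_le_sum fun S _ => le_Phi h0 hd S
      have hmass := (hA A hAt).2
      have hsplit : ∑ S ∈ A.powerset, hq P S
          = (2 / w) * (∑ S ∈ A.powerset, h S - ∑ S ∈ P.powerset, h S) := by
        rw [← sum_sdiff (powerset_mono.2 hPA) (f := hq P), ← sum_sdiff (powerset_mono.2 hPA) (f := h),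
          add_sub_cancel_right, mul_sum]
        rw [sum_eq_zero (s := P.powerset) fun S hS => by simp [hq_def, mem_powerset.1 hS], add_zero]
        refine sum_congr rfl fun S hS => ?_
        rw [mem_sdiff, mem_powerset, mem_powerset] at hS
        simp [hq_def, hP, hS.2]; ring
      rw [hsplit]
      rw [div_mul_eq_mul_div, one_le_div hw]
      linarith
  obtain ⟨G, hG, hsum⟩ := round_cover hr (fun U => N * grow hq ∅ q U)
    (fun U => mul_nonneg hN (grow_nonneg hq0 q U)) tests N hNmass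
  refine ⟨G, hG, hsum.trans (add_le_add ?_ (mul_le_mul_of_nonneg_left ?_ (Real.exp_pos _).le))⟩
  · simp only [mul_assoc, ← mul_sum]
    refine mul_le_mul_of_nonneg_left ?_ hN
    exact (grow_cost hr (by norm_num) hq0 hcost q).trans (le_of_eq (by simp))
  · exact tests_cost (Ok := fun P => ∑ S : Finset X, h S * r ^ (S \ P).card ≤ B)
      hr hδ hB h0 (fun P hP => hP) n tests
      fun A hAt => ⟨hbd A hAt, (hA A hAt).1⟩

theorem single_cover {h : Finset X → ℝ} {r w δ B C N : ℝ} {n : ℕ}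
    (h0 : ∀ S, 0 ≤ h S) (hr : 0 ≤ r) (hw : 0 < w) (hδ : 0 < δ) (hB : 0 ≤ B)
    (hN : 0 ≤ N) (hC : ∑ S : Finset X, h S * r ^ S.card ≤ C) (tests : Finset (Finset X))
    (hA : ∀ A ∈ tests, IsTest h δ w n A)
    (hbd : ∀ A ∈ tests, ∀ P, P ⊆ A → ∑ S : Finset X, h S * r ^ (S \ P).card ≤ B) :
    ∃ G : Finset (Finset X), (∀ A ∈ tests, Covered G A) ∧
      ∑ U ∈ G, r ^ U.card ≤ N / w * C + Real.exp (-N) * (B / δ + 1) ^ n := by
  have hNmass : ∀ A ∈ tests, N ≤ ∑ U ∈ A.powerset, (fun U => N / w * h U) U := by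
    intro A hAt
    simp only []
    rw [← mul_sum, div_mul_eq_mul_div, le_div_iff₀ hw]
    exact mul_le_mul_of_nonneg_left (hA A hAt).2 hN
  obtain ⟨G, hG, hsum⟩ := round_cover hr (fun U => N / w * h U)
    (fun U => mul_nonneg (div_nonneg hN hw.le) (h0 U)) tests N hNmass
  refine ⟨G, hG, hsum.trans (add_le_add ?_ (mul_le_mul_of_nonneg_left ?_ (Real.exp_pos _).le))⟩
  · simp only [mul_assoc, ← mul_sum]
    exact mul_le_mul_of_nonneg_left hC (div_nonneg hN hw.le)
  · exact tests_cost (Ok := fun P => ∑ S : Finset X, h S * r ^ (S \ P).card ≤ B)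
      hr hδ hB h0 (fun P hP => hP) n tests fun A hAt => ⟨hbd A hAt, (hA A hAt).1⟩

omit [Fintype X] in
/-- A small set carrying weight yields a test made of its heavy subsets. -/
theorem exists_test {h : Finset X → ℝ} {δ w : ℝ} {T b : ℕ} {B : Finset X} (hδ : 0 ≤ δ)
    (hb : B.card ≤ b) (hT : ∀ S, h S ≠ 0 → S.card ≤ T)
    (hlow : ((b : ℝ) + 1) ^ T * δ ≤ ∑ S ∈ layer T B, h S - w) (hw : 0 < w) (h0 : ∀ S, 0 ≤ h S) :
    ∃ A, A ⊆ B ∧ IsTest h δ w b A := by
  classical
  set F := (layer T B).filter (fun S => δ ≤ h S) with hF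
  obtain ⟨F', hF', hcard, hU⟩ := small_subfamily F
  have hsub : F.biUnion id ⊆ B := by
    refine biUnion_subset.2 fun S hS => ?_
    exact (mem_layer.1 (mem_filter.1 hS).1).1
  refine ⟨F.biUnion id, hsub, ⟨F', hcard.trans ((card_le_card hsub).trans hb),
    fun S hS => (mem_filter.1 (hF' hS)).2, hU⟩, ?_⟩
  have h1 : ∑ S ∈ (layer T B).filter (fun S => ¬ δ ≤ h S), h S ≤ ((b : ℝ) + 1) ^ T * δ := by
    calc _ ≤ ∑ _S ∈ (layer T B).filter (fun S => ¬ δ ≤ h S), δ :=
          sum_le_sum fun S hS => (not_le.1 (mem_filter.1 hS).2).le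
      _ ≤ _ := by
          rw [sum_const, nsmul_eq_mul]
          refine mul_le_mul_of_nonneg_right ?_ hδ
          exact_mod_cast ((card_filter_le _ _).trans (card_layer T B)).trans
            (Nat.pow_le_pow_left (by omega) T)
  have h2 := sum_filter_add_sum_filter_not (layer T B) (fun S => δ ≤ h S) h
  have h3 : ∑ S ∈ F, h S ≤ ∑ S ∈ (F.biUnion id).powerset, h S :=
    sum_le_sum_of_subset_of_nonneg
      (fun S hS => mem_powerset.2 (fun x hx => mem_biUnion.2 ⟨S, hS, hx⟩)) fun S _ _ => h0 S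
  rw [← hF] at h2
  linarith

end Vale.Agent.P034.Full
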