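import Vale.Agent.P034.Full.Level
import Vale.Agent.P034.Full.Pool

/-!
Parameters of the decomposition of the certificates of size `T`, the canonical chain, and the
statement of the per-size cover.
-/

namespace Vale.Agent.P034.Full

open Finset

/-- Exponent of the first class boundary. -/
def expo (T : ℕ) : ℕ := 2 * ((4 * T + 2) * (T + 4)) + 64

/-- Class `j` consists of the sets with weight above `2 ^ -lev T j` and at most `2 ^ -lev T (j-1)`. -/
def lev (T j : ℕ) : ℕ := 2 ^ (expo T + j)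

/-- Load scales. -/
def kap (T j s : ℕ) : ℕ := (8 * T) ^ s * (expo T + j + T + 32)

/-- Link threshold exponents. -/
def lam (T j s : ℕ) : ℕ := (kap T j s + 2 * T + 1) * T + (j + T + 24)

variable {X : Type} [Fintype X] [DecidableEq X]

open Classical in
/-- The class of a set. -/
noncomputable def cls (T : ℕ) (g : Finset X → ℝ) (S : Finset X) : ℕ :=
  if h : ∃ j, (1 / 2 : ℝ) ^ lev T j < g S then Nat.find h else 0

/-- The canonical part of a certificate at scale `s`. -/
noncomputable def chainPart (g : Finset X → ℝ) (a : ℝ) (T s : ℕ) (S : Finset X) : Finset X :=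
  hiUnion g a ((1 / 2 : ℝ) ^ lam T (cls T g S) s) S

/-- Derived weight carried by the canonical parts at distance `τ`. -/
noncomputable def chainWeight (g : Finset X → ℝ) (a : ℝ) (T τ : ℕ) (U : Finset X) : ℝ :=
  ∑ S : Finset X,
    if ∃ s ∈ range (4 * T + 1), chainPart g a T s S = U ∧ (S \ U).card = τ ∧ U.Nonempty
    then g S * a ^ τ else 0

/-- All canonical statistics inside `H` are small. -/
def CanonLight (g : Finset X → ℝ) (a : ℝ) (T : ℕ) (H : Finset X) : Prop :=
  ∀ τ, 1 ≤ τ → τ < T → ∑ U ∈ H.powerset, chainWeight g a T τ U ≤ (1 / 2 : ℝ) ^ τ / 64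

/-- The per-size statement: certificates of size `T` and small cost give a cheap cover of the
light sets carrying mass `1`. -/
def LightCover : Prop :=
  ∀ (X : Type) [Fintype X] [DecidableEq X] (g : Finset X → ℝ) (a r : ℝ) (T : ℕ),
    1 ≤ T → Sys g a T → ∑ S : Finset X, g S * (16 * a) ^ S.card ≤ (1 / 2 : ℝ) ^ (64 * T) →
    0 ≤ r → r ≤ a / 256 →
    ∃ G : Finset (Finset X), ∑ U ∈ G, r ^ U.card ≤ (1 / 2 : ℝ) ^ (T + 7) ∧
      ∀ H, Light g a T H → CanonLight g a T H → 1 ≤ ∑ S ∈ H.powerset, g S → Covered G H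

/-- The heavy classes (class `0`). -/
def BottomCover : Prop :=
  ∀ (X : Type) [Fintype X] [DecidableEq X] (g : Finset X → ℝ) (a r : ℝ) (T : ℕ),
    1 ≤ T → Sys g a T → ∑ S : Finset X, g S * (16 * a) ^ S.card ≤ (1 / 2 : ℝ) ^ (64 * T) →
    0 ≤ r → r ≤ a / 256 →
    ∃ G : Finset (Finset X), ∑ U ∈ G, r ^ U.card ≤ (1 / 2 : ℝ) ^ (T + 8) ∧
      ∀ H, Light g a T H →
        1 / 2 ≤ ∑ S ∈ H.powerset, (if (1 / 2 : ℝ) ^ lev T 0 < g S then g S else 0) → Covered G H

end Vale.Agent.P034.Full
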