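import Mathlib

/-!
Rounding weights to an integral cover, and weights of unions built step by step.
-/

namespace Vale.Agent.P034.Full

open Finset

variable {X : Type} [Fintype X] [DecidableEq X]

/-- Some member of `G` lies inside `A`. -/
def Covered (G : Finset (Finset X)) (A : Finset X) : Prop := ∃ U ∈ G, U ⊆ A

/-- Derandomised rounding. -/
theorem round_aux {r : ℝ} (hr : 0 ≤ r) (w : Finset X → ℝ) (hw : ∀ U, 0 ≤ w U)
    (tests : Finset (Finset X)) :
    ∀ (Us : Finset (Finset X)) (c : Finset X → ℝ), (∀ A, 0 ≤ c A) →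
      ∃ G : Finset (Finset X), ∑ U ∈ G, r ^ U.card
          + ∑ A ∈ tests, (open Classical in if Covered G A then 0 else c A)
        ≤ ∑ U ∈ Us, w U * r ^ U.card
          + ∑ A ∈ tests, c A * Real.exp (-∑ U ∈ Us, (open Classical in if U ⊆ A then w U else 0)) := by
  classical
  intro Us
  induction Us using Finset.induction_on with
  | empty =>
    intro c _
    exact ⟨∅, by simp [Covered]⟩
  | insert U₀ Us hnot ih =>
    intro c hc
    obtain ⟨G, hG⟩ := ih (fun A => if U₀ ⊆ A then c A * Real.exp (-w U₀) else c A) (fun A => by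
      split_ifs
      · exact mul_nonneg (hc A) (Real.exp_pos _).le
      · exact hc A)
    set R : ℝ := r ^ U₀.card
    set K : ℝ := ∑ A ∈ tests, if U₀ ⊆ A ∧ ¬ Covered G A then c A else 0 with hK
    set O : ℝ := ∑ A ∈ tests, if U₀ ⊆ A ∨ Covered G A then 0 else c A with hO
    have hR : 0 ≤ R := pow_nonneg hr _
    have hK0 : 0 ≤ K := sum_nonneg fun A _ => by split_ifs; exacts [hc A, le_rfl]
    have e : ∑ A ∈ tests, (if Covered G A then 0 else c A) = K + O := by
      rw [hK, hO, ← sum_add_distrib]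
      refine sum_congr rfl fun A _ => ?_
      by_cases h1 : U₀ ⊆ A <;> by_cases h2 : Covered G A <;> simp [h1, h2]
    have e' : ∑ A ∈ tests, (if Covered G A then 0
        else if U₀ ⊆ A then c A * Real.exp (-w U₀) else c A) = K * Real.exp (-w U₀) + O := by
      rw [hK, hO, sum_mul, ← sum_add_distrib]
      refine sum_congr rfl fun A _ => ?_
      by_cases h1 : U₀ ⊆ A <;> by_cases h2 : Covered G A <;> simp [h1, h2]
    have hE : 1 - Real.exp (-w U₀) ≤ w U₀ := by linarith [Real.add_one_le_exp (-w U₀)]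
    have hE1 : Real.exp (-w U₀) ≤ 1 := Real.exp_le_one_iff.2 (by linarith [hw U₀])
    have key : ∃ G' : Finset (Finset X), ∑ U ∈ G', r ^ U.card
        + ∑ A ∈ tests, (if Covered G' A then 0 else c A)
        ≤ w U₀ * R + (∑ U ∈ G, r ^ U.card + (K * Real.exp (-w U₀) + O)) := by
      rcases le_total K R with hKR | hKR
      · refine ⟨G, ?_⟩
        rw [e]
        nlinarith [mul_le_mul_of_nonneg_right hE hK0, mul_le_mul_of_nonneg_left hKR (hw U₀)]
      · refine ⟨insert U₀ G, ?_⟩
        have h1 : ∑ U ∈ insert U₀ G, r ^ U.card ≤ R + ∑ U ∈ G, r ^ U.card := by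
          by_cases h : U₀ ∈ G
          · rw [insert_eq_of_mem h]; linarith
          · rw [sum_insert h]
        have h2 : ∑ A ∈ tests, (if Covered (insert U₀ G) A then 0 else c A) = O := by
          rw [hO]
          refine sum_congr rfl fun A _ => ?_
          have : Covered (insert U₀ G) A ↔ U₀ ⊆ A ∨ Covered G A := by simp [Covered]
          simp only [this]
        rw [h2]
        nlinarith [mul_le_mul_of_nonneg_right hE hR,
          mul_le_mul_of_nonneg_left hKR (Real.exp_pos (-w U₀)).le]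
    obtain ⟨G', hG'⟩ := key
    refine ⟨G', hG'.trans ?_⟩
    rw [e'] at hG
    rw [sum_insert hnot]
    have h3 : ∀ A, c A * Real.exp (-∑ U ∈ insert U₀ Us, if U ⊆ A then w U else 0)
        = (if U₀ ⊆ A then c A * Real.exp (-w U₀) else c A)
          * Real.exp (-∑ U ∈ Us, if U ⊆ A then w U else 0) := by
      intro A
      rw [sum_insert hnot, neg_add, Real.exp_add]
      by_cases h : U₀ ⊆ A
      · simp only [if_pos h]; ring
      · simp only [if_neg h, neg_zero, Real.exp_zero]; ring
    simp only [h3]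
    linarith

/-- Weights `w` that put mass at least `N` inside every test give a cover of the tests. -/
theorem round_cover {r : ℝ} (hr : 0 ≤ r) (w : Finset X → ℝ) (hw : ∀ U, 0 ≤ w U)
    (tests : Finset (Finset X)) (N : ℝ)
    (hN : ∀ A ∈ tests, N ≤ ∑ U ∈ A.powerset, w U) :
    ∃ G : Finset (Finset X), (∀ A ∈ tests, Covered G A) ∧
      ∑ U ∈ G, r ^ U.card
        ≤ ∑ U : Finset X, w U * r ^ U.card + Real.exp (-N) * ∑ A ∈ tests, r ^ A.card := by
  classical
  obtain ⟨G, hG⟩ := round_aux hr w hw tests univ (fun A => r ^ A.card) (fun A => pow_nonneg hr _)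
  refine ⟨G ∪ tests.filter (fun A => ¬ Covered G A), fun A hA => ?_, ?_⟩
  · by_cases h : Covered G A
    · obtain ⟨U, hU, hUA⟩ := h
      exact ⟨U, mem_union_left _ hU, hUA⟩
    · exact ⟨A, mem_union_right _ (mem_filter.2 ⟨hA, h⟩), subset_rfl⟩
  · have h1 : ∑ U ∈ G ∪ tests.filter (fun A => ¬ Covered G A), r ^ U.card
        ≤ ∑ U ∈ G, r ^ U.card + ∑ A ∈ tests, (if Covered G A then 0 else r ^ A.card) := by
      have := sum_union_inter (s₁ := G) (s₂ := tests.filter (fun A => ¬ Covered G A))
        (f := fun U : Finset X => r ^ U.card)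
      have h0 : (0:ℝ) ≤ ∑ U ∈ G ∩ tests.filter (fun A => ¬ Covered G A), r ^ U.card :=
        sum_nonneg fun U _ => pow_nonneg hr _
      have h2 : ∑ A ∈ tests, (if Covered G A then 0 else r ^ A.card)
          = ∑ A ∈ tests.filter (fun A => ¬ Covered G A), r ^ A.card := by
        rw [sum_filter]
        exact sum_congr rfl fun A _ => by by_cases h : Covered G A <;> simp [h]
      linarith
    refine (h1.trans hG).trans (add_le_add_right ?_ _)
    rw [mul_sum]
    refine sum_le_sum fun A hA => ?_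
    rw [mul_comm (Real.exp (-N))]
    refine mul_le_mul_of_nonneg_left (Real.exp_le_exp.2 (neg_le_neg ?_)) (pow_nonneg hr _)
    rw [← sum_filter]
    refine (hN A hA).trans (le_of_eq ?_)
    refine sum_congr ?_ fun _ _ => rfl
    ext U; simp

/-- Weights of the unions reachable from `P₀` in `n` steps, a step from `P` by `S` having
weight `h P S`. -/
noncomputable def grow (h : Finset X → Finset X → ℝ) (P₀ : Finset X) :
    ℕ → Finset X → ℝ
  | 0, U => if U = P₀ then 1 else 0
  | n + 1, U => ∑ P : Finset X, ∑ S : Finset X,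
      if P ∪ S = U then grow h P₀ n P * h P S else 0

variable {h : Finset X → Finset X → ℝ} {P₀ : Finset X}

lemma grow_nonneg (h0 : ∀ P S, 0 ≤ h P S) : ∀ n U, 0 ≤ grow h P₀ n U := by
  intro n
  induction n with
  | zero => intro U; simp only [grow]; split_ifs <;> norm_num
  | succ n ih =>
    intro U
    refine sum_nonneg fun P _ => sum_nonneg fun S _ => ?_
    split_ifs
    · exact mul_nonneg (ih P) (h0 P S)
    · rfl

theorem grow_cost {r B : ℝ} (hr : 0 ≤ r) (hB : 0 ≤ B) (h0 : ∀ P S, 0 ≤ h P S)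
    (hstep : ∀ P, ∑ S : Finset X, h P S * r ^ (S \ P).card ≤ B) (n : ℕ) :
    ∑ U : Finset X, grow h P₀ n U * r ^ U.card ≤ r ^ P₀.card * B ^ n := by
  induction n with
  | zero => simp [grow]
  | succ n ih =>
    have e : ∑ U : Finset X, grow h P₀ (n + 1) U * r ^ U.card
        = ∑ P : Finset X, grow h P₀ n P * r ^ P.card * ∑ S : Finset X, h P S * r ^ (S \ P).card := by
      simp only [grow, sum_mul, mul_sum]
      rw [sum_comm]
      refine sum_congr rfl fun P _ => ?_
      rw [sum_comm]
      refine sum_congr rfl fun S _ => ?_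
      simp only [ite_mul, zero_mul]
      rw [sum_ite_eq, if_pos (mem_univ _), show (P ∪ S).card = P.card + (S \ P).card by
        rw [← union_sdiff_self_eq_union, card_union_of_disjoint disjoint_sdiff], pow_add]
      ring
    rw [e, pow_succ, ← mul_assoc]
    calc _ ≤ ∑ P : Finset X, grow h P₀ n P * r ^ P.card * B :=
          sum_le_sum fun P _ => mul_le_mul_of_nonneg_left (hstep P)
            (mul_nonneg (grow_nonneg h0 n P) (pow_nonneg hr _))
      _ ≤ _ := by rw [← sum_mul]; exact mul_le_mul_of_nonneg_right ih hB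

theorem grow_mass {m : ℝ} (hm : 0 ≤ m) (h0 : ∀ P S, 0 ≤ h P S) {A : Finset X} {T q : ℕ}
    (hP₀ : P₀ ⊆ A) (hsz : ∀ P S, h P S ≠ 0 → S.card ≤ T)
    (hstep : ∀ P, P₀ ⊆ P → P ⊆ A → (P \ P₀).card ≤ q * T → m ≤ ∑ S ∈ A.powerset, h P S) :
    ∀ n ≤ q, m ^ n ≤ ∑ U ∈ A.powerset.filter
      (fun U => P₀ ⊆ U ∧ (U \ P₀).card ≤ n * T), grow h P₀ n U := by
  intro n
  induction n with
  | zero =>
    intro _
    refine le_of_eq_of_le (pow_zero m) (le_trans ?_ (single_le_sum
      (fun U _ => grow_nonneg h0 0 U) (show P₀ ∈ _ by simp [hP₀])))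
    simp [grow]
  | succ n ih =>
    intro hn
    set I := A.powerset.filter (fun U => P₀ ⊆ U ∧ (U \ P₀).card ≤ n * T) with hI
    set I' := A.powerset.filter (fun U => P₀ ⊆ U ∧ (U \ P₀).card ≤ (n + 1) * T) with hI'
    calc m ^ (n + 1) = m ^ n * m := pow_succ m n
      _ ≤ (∑ P ∈ I, grow h P₀ n P) * m := mul_le_mul_of_nonneg_right (ih (by omega)) hm
      _ ≤ ∑ P ∈ I, ∑ S ∈ A.powerset, grow h P₀ n P * h P S := by
          rw [sum_mul]
          refine sum_le_sum fun P hP => ?_
          rw [hI, mem_filter, mem_powerset] at hP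
          rw [← mul_sum]
          exact mul_le_mul_of_nonneg_left (hstep P hP.2.1 hP.1
            (hP.2.2.trans (Nat.mul_le_mul_right T (by omega)))) (grow_nonneg h0 n P)
      _ ≤ ∑ P : Finset X, ∑ S : Finset X, if P ∪ S ∈ I' then grow h P₀ n P * h P S else 0 := by
          have hnn : ∀ P S : Finset X,
              (0:ℝ) ≤ if P ∪ S ∈ I' then grow h P₀ n P * h P S else 0 := fun P S => by
            split_ifs
            · exact mul_nonneg (grow_nonneg h0 n P) (h0 P S)
            · rfl
          refine le_trans (sum_le_sum fun P hP => ?_)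
            (sum_le_sum_of_subset_of_nonneg (subset_univ I) fun P _ _ => sum_nonneg fun S _ => hnn P S)
          refine le_trans (sum_le_sum fun S hS => ?_)
            (sum_le_sum_of_subset_of_nonneg (subset_univ A.powerset) fun S _ _ => hnn P S)
          rw [hI, mem_filter, mem_powerset] at hP
          rw [mem_powerset] at hS
          by_cases hz : h P S = 0
          · simp [hz]
          · rw [if_pos]
            rw [hI', mem_filter, mem_powerset]
            refine ⟨union_subset hP.1 hS, hP.2.1.trans subset_union_left, ?_⟩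
            calc ((P ∪ S) \ P₀).card ≤ ((P \ P₀) ∪ S).card :=
                  card_le_card fun x => by simp; tauto
              _ ≤ (P \ P₀).card + S.card := card_union_le _ _
              _ ≤ n * T + T := Nat.add_le_add hP.2.2 (hsz P S hz)
              _ = (n + 1) * T := by ring
      _ = ∑ U ∈ I', grow h P₀ (n + 1) U := by
          simp only [grow]
          conv_rhs => rw [sum_comm]
          refine sum_congr rfl fun P _ => ?_
          conv_rhs => rw [sum_comm]
          refine sum_congr rfl fun S _ => ?_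
          rw [sum_ite_eq]

/-- Steps for listing unions of sets of weight at least `δ`; `∅` is an idle step. -/
noncomputable def listStep (h : Finset X → ℝ) (δ : ℝ) (Ok : Finset X → Prop)
    (P S : Finset X) : ℝ :=
  (open Classical in if Ok P then h S / δ else 0) + if S = ∅ then 1 else 0

lemma listStep_nonneg {h : Finset X → ℝ} {δ : ℝ} (Ok : Finset X → Prop) (hδ : 0 ≤ δ)
    (h0 : ∀ S, 0 ≤ h S) : ∀ P S, 0 ≤ listStep h δ Ok P S := by
  classical
  intro P S
  refine add_nonneg ?_ ?_ <;> split_ifs <;> first | exact div_nonneg (h0 S) hδ | norm_num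

theorem list_cost {h : Finset X → ℝ} {δ r B : ℝ} {Ok : Finset X → Prop} (hr : 0 ≤ r)
    (hδ : 0 < δ) (hB0 : 0 ≤ B) (h0 : ∀ S, 0 ≤ h S)
    (hB : ∀ P, Ok P → ∑ S : Finset X, h S * r ^ (S \ P).card ≤ B) (n : ℕ) :
    ∑ U : Finset X, grow (listStep h δ Ok) ∅ n U * r ^ U.card ≤ (B / δ + 1) ^ n := by
  classical
  refine (grow_cost hr (by positivity) (listStep_nonneg Ok hδ.le h0) (B := B / δ + 1) (fun P => ?_)
    n).trans (le_of_eq (by simp))
  simp only [listStep, add_mul, sum_add_distrib, ite_mul, zero_mul, one_mul]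
  refine add_le_add ?_ (by simp)
  by_cases hP : Ok P
  · simp only [if_pos hP, div_mul_eq_mul_div, ← Finset.sum_div]
    exact div_le_div_of_nonneg_right (hB P hP) hδ.le
  · simp only [if_neg hP, sum_const_zero]
    positivity

theorem list_mass {h : Finset X → ℝ} {δ : ℝ} {Ok : Finset X → Prop} (hδ : 0 < δ)
    (h0 : ∀ S, 0 ≤ h S) :
    ∀ (n : ℕ) (l : List (Finset X)), l.length ≤ n → (∀ S ∈ l, δ ≤ h S) →
      (∀ P, P ⊆ l.foldr (· ∪ ·) ∅ → Ok P) →
      1 ≤ grow (listStep h δ Ok) ∅ n (l.foldr (· ∪ ·) ∅) := by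
  classical
  have hs := listStep_nonneg Ok hδ.le h0
  intro n
  induction n with
  | zero =>
    intro l hl _ _
    rw [List.length_eq_zero_iff.1 (Nat.le_zero.1 hl)]
    simp [grow]
  | succ n ih =>
    intro l hl hbig hok
    have key : ∀ P S : Finset X, P ∪ S = l.foldr (· ∪ ·) ∅ →
        grow (listStep h δ Ok) ∅ n P * listStep h δ Ok P S
          ≤ grow (listStep h δ Ok) ∅ (n + 1) (l.foldr (· ∪ ·) ∅) := by
      intro P S hPS
      have hnn : ∀ P' S' : Finset X, (0:ℝ) ≤ if P' ∪ S' = l.foldr (· ∪ ·) ∅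
          then grow (listStep h δ Ok) ∅ n P' * listStep h δ Ok P' S' else 0 := fun P' S' => by
        split_ifs
        · exact mul_nonneg (grow_nonneg hs n P') (hs P' S')
        · rfl
      simp only [grow]
      refine le_trans ?_ (single_le_sum (fun P' _ => sum_nonneg fun S' _ => hnn P' S') (mem_univ P))
      refine le_trans ?_ (single_le_sum (fun S' _ => hnn P S') (mem_univ S))
      rw [if_pos hPS]
    cases l with
    | nil =>
      refine le_trans ?_ (key ∅ ∅ (by simp))
      exact one_le_mul_of_one_le_of_one_le (ih [] (by simp) hbig hok)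
        (le_add_of_nonneg_left (by split_ifs <;> first | exact div_nonneg (h0 _) hδ.le | norm_num)
          |>.trans' (by simp))
    | cons S l =>
      have hsub : l.foldr (· ∪ ·) ∅ ⊆ (S :: l).foldr (· ∪ ·) ∅ := by simp
      refine le_trans ?_ (key (l.foldr (· ∪ ·) ∅) S (by simp [union_comm]))
      refine one_le_mul_of_one_le_of_one_le (ih l (by simpa using hl)
        (fun S' hS' => hbig S' (List.mem_cons_of_mem _ hS')) (fun P hP => hok P (hP.trans hsub))) ?_
      simp only [listStep, if_pos (hok _ hsub)]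
      refine le_trans ((one_le_div hδ).2 (hbig S List.mem_cons_self)) (le_add_of_nonneg_right ?_)
      split_ifs <;> norm_num

/-- A union of at most `n` sets of weight at least `δ`, given as a finset of sets. -/
theorem list_mass' {h : Finset X → ℝ} {δ : ℝ} {Ok : Finset X → Prop} (hδ : 0 < δ)
    (h0 : ∀ S, 0 ≤ h S) {n : ℕ} (F : Finset (Finset X)) (hF : F.card ≤ n)
    (hbig : ∀ S ∈ F, δ ≤ h S) (hok : ∀ P, P ⊆ F.biUnion id → Ok P) :
    1 ≤ grow (listStep h δ Ok) ∅ n (F.biUnion id) := by
  have e : F.toList.foldr (· ∪ ·) ∅ = F.biUnion id := by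
    ext x
    have : ∀ l : List (Finset X), x ∈ l.foldr (· ∪ ·) ∅ ↔ ∃ S ∈ l, x ∈ S := by
      intro l; induction l <;> simp_all
    simp [this]
  rw [← e] at hok ⊢
  exact list_mass hδ h0 n _ (by simpa using hF) (fun S hS => hbig S (Finset.mem_toList.1 hS)) hok

/-- The unions of at most `n` sets of weight at least `δ` have small total cost. -/
theorem tests_cost {h : Finset X → ℝ} {δ r B : ℝ} {Ok : Finset X → Prop} (hr : 0 ≤ r)
    (hδ : 0 < δ) (hB0 : 0 ≤ B) (h0 : ∀ S, 0 ≤ h S)
    (hB : ∀ P, Ok P → ∑ S : Finset X, h S * r ^ (S \ P).card ≤ B) (n : ℕ)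
    (tests : Finset (Finset X))
    (ht : ∀ A ∈ tests, (∀ P, P ⊆ A → Ok P) ∧
      ∃ F : Finset (Finset X), F.card ≤ n ∧ (∀ S ∈ F, δ ≤ h S) ∧ F.biUnion id = A) :
    ∑ A ∈ tests, r ^ A.card ≤ (B / δ + 1) ^ n := by
  refine le_trans ?_ (list_cost hr hδ hB0 h0 hB n)
  refine (sum_le_sum fun A hA => ?_).trans (sum_le_sum_of_subset_of_nonneg (subset_univ tests)
    fun U _ _ => mul_nonneg (grow_nonneg (listStep_nonneg Ok hδ.le h0) n U) (pow_nonneg hr _))
  obtain ⟨hok, F, hF, hbig, rfl⟩ := ht A hA
  exact le_mul_of_one_le_left (pow_nonneg hr _) (list_mass' hδ h0 F hF hbig hok)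

end Vale.Agent.P034.Full
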