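import Vale.Agent.P034.Full.Round

/-!
Link weights `Phi g d T'` of a weighted family and the elementary bounds on them.
-/

namespace Vale.Agent.P034.Full

open Finset

variable {X : Type} [Fintype X] [DecidableEq X]

/-- `∑_{S ⊇ T'} g S * d ^ |S \ T'|`. -/
noncomputable def Phi (g : Finset X → ℝ) (d : ℝ) (T' : Finset X) : ℝ :=
  ∑ S : Finset X, if T' ⊆ S then g S * d ^ (S \ T').card else 0

/-- The subsets of `P` of size at most `k`. -/
def layer (k : ℕ) (P : Finset X) : Finset (Finset X) := P.powerset.filter (fun s => s.card ≤ k)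

omit [Fintype X] [DecidableEq X] in
lemma mem_layer {k : ℕ} {P s : Finset X} : s ∈ layer k P ↔ s ⊆ P ∧ s.card ≤ k := by
  simp [layer]

omit [Fintype X] in
lemma card_layer (k : ℕ) (P : Finset X) : (layer k P).card ≤ (P.card + 1) ^ k := by
  induction k with
  | zero =>
    refine card_le_one.2 fun a ha b hb => ?_
    rw [mem_layer] at ha hb
    rw [card_eq_zero.1 (Nat.le_zero.1 ha.2), card_eq_zero.1 (Nat.le_zero.1 hb.2)]
  | succ k ih =>
    have hsub : layer (k + 1) P ⊆
        ((insert ∅ (P.image fun x => ({x} : Finset X))) ×ˢ layer k P).image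
          (fun z => z.1 ∪ z.2) := by
      intro s hs
      rw [mem_layer] at hs
      rw [mem_image]
      by_cases h : s.card ≤ k
      · exact ⟨(∅, s), mem_product.2 ⟨mem_insert_self _ _, mem_layer.2 ⟨hs.1, h⟩⟩, by simp⟩
      · obtain ⟨x, hx⟩ := card_pos.1 (show 0 < s.card by omega)
        refine ⟨({x}, s.erase x), mem_product.2 ⟨mem_insert_of_mem (mem_image.2 ⟨x, hs.1 hx, rfl⟩),
          mem_layer.2 ⟨(erase_subset _ _).trans hs.1, ?_⟩⟩, ?_⟩
        · rw [card_erase_of_mem hx]; omega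
        · ext y; by_cases hy : y = x <;> simp [hy, hx]
    refine (card_le_card hsub).trans (card_image_le.trans ?_)
    rw [card_product, pow_succ, mul_comm ((P.card + 1) ^ k)]
    exact Nat.mul_le_mul ((card_insert_le _ _).trans (Nat.succ_le_succ card_image_le)) ih

lemma Phi_nonneg {g : Finset X → ℝ} {d : ℝ} (hg : ∀ S, 0 ≤ g S) (hd : 0 ≤ d) (T' : Finset X) :
    0 ≤ Phi g d T' := by
  refine sum_nonneg fun S _ => ?_
  split_ifs
  · exact mul_nonneg (hg S) (pow_nonneg hd _)
  · rfl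

lemma Phi_empty (g : Finset X → ℝ) (d : ℝ) :
    Phi g d ∅ = ∑ S : Finset X, g S * d ^ S.card := by
  simp [Phi]

lemma le_Phi {g : Finset X → ℝ} {d : ℝ} (hg : ∀ S, 0 ≤ g S) (hd : 0 ≤ d) (S : Finset X) :
    g S ≤ Phi g d S := by
  refine le_trans ?_ (single_le_sum (f := fun S' => if S ⊆ S' then g S' * d ^ (S' \ S).card else 0)
    (fun S' _ => ?_) (mem_univ S))
  · simp
  · split_ifs
    · exact mul_nonneg (hg S') (pow_nonneg hd _)
    · rfl

lemma Phi_mono {g g' : Finset X → ℝ} {d : ℝ} (hd : 0 ≤ d) (h : ∀ S, g S ≤ g' S) (T' : Finset X) :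
    Phi g d T' ≤ Phi g' d T' := by
  refine sum_le_sum fun S _ => ?_
  split_ifs
  · exact mul_le_mul_of_nonneg_right (h S) (pow_nonneg hd _)
  · rfl

lemma Phi_scale {g : Finset X → ℝ} {d c : ℝ} {T : ℕ} (hg : ∀ S, 0 ≤ g S) (hd : 0 ≤ d)
    (hc : 1 ≤ c) (hT : ∀ S, g S ≠ 0 → S.card ≤ T) (T' : Finset X) :
    Phi g (c * d) T' ≤ c ^ T * Phi g d T' := by
  rw [Phi, Phi, mul_sum]
  refine sum_le_sum fun S _ => ?_
  split_ifs with h
  · by_cases h0 : g S = 0
    · simp [h0]
    · rw [mul_pow, mul_left_comm]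
      refine mul_le_mul_of_nonneg_right ?_ (mul_nonneg (hg S) (pow_nonneg hd _))
      exact pow_le_pow_right₀ hc ((card_le_card sdiff_subset).trans (hT S h0))
  · simp

/-- Links of links are links at the sum of the densities. -/
lemma Phi_comp (g : Finset X → ℝ) (d e : ℝ) (T'' : Finset X) :
    Phi (Phi g d) e T'' = Phi g (e + d) T'' := by
  simp only [Phi]
  simp only [sum_mul]
  have : ∀ T' : Finset X, (if T'' ⊆ T' then ∑ S : Finset X,
      (if T' ⊆ S then g S * d ^ (S \ T').card else 0) * e ^ (T' \ T'').card else 0)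
      = ∑ S : Finset X, if T'' ⊆ T' ∧ T' ⊆ S
          then g S * (e ^ (T' \ T'').card * d ^ (S \ T').card) else 0 := by
    intro T'
    by_cases h : T'' ⊆ T'
    · rw [if_pos h]
      refine sum_congr rfl fun S _ => ?_
      by_cases h' : T' ⊆ S
      · rw [if_pos h', if_pos ⟨h, h'⟩]; ring
      · rw [if_neg h', if_neg (fun hh => h' hh.2), zero_mul]
    · rw [if_neg h, sum_eq_zero fun S _ => if_neg fun hh => h hh.1]
  simp only [this]
  rw [sum_comm]
  refine sum_congr rfl fun S _ => ?_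
  by_cases hS : T'' ⊆ S
  · rw [if_pos hS, ← sum_pow_mul_eq_add_pow e d (S \ T''), mul_sum, ← sum_filter]
    refine sum_nbij' (fun T' => T' \ T'') (fun R => T'' ∪ R) ?_ ?_ ?_ ?_ ?_
    · intro T' hT'
      rw [mem_filter] at hT'
      rw [mem_powerset]
      exact sdiff_subset_sdiff hT'.2.2 subset_rfl
    · intro R hR
      rw [mem_powerset] at hR
      rw [mem_filter]
      exact ⟨mem_univ _, subset_union_left, union_subset hS (hR.trans sdiff_subset)⟩
    · intro T' hT'
      rw [mem_filter] at hT'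
      exact union_sdiff_of_subset hT'.2.1
    · intro R hR
      rw [mem_powerset] at hR
      ext x
      have : x ∈ R → x ∉ T'' := fun hx => (mem_sdiff.1 (hR hx)).2
      simp; tauto
    · intro T' hT'
      rw [mem_filter] at hT'
      congr 3
      rw [← card_sdiff_of_subset (sdiff_subset_sdiff hT'.2.2 subset_rfl)]
      congr 1
      ext x
      have : x ∈ T'' → x ∈ T' := fun hx => hT'.2.1 hx
      simp; tauto
  · rw [if_neg hS, sum_eq_zero fun T' _ => if_neg fun hh => hS (hh.1.trans hh.2)]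

/-- The cost of sampling `S` on top of `P` is at most the links inside `P`. -/
lemma split_le {h : Finset X → ℝ} {r d : ℝ} {T : ℕ} (h0 : ∀ S, 0 ≤ h S) (hr : 0 ≤ r)
    (hrd : r ≤ d) (hT : ∀ S, h S ≠ 0 → S.card ≤ T) (P : Finset X) :
    ∑ S : Finset X, h S * r ^ (S \ P).card ≤ ∑ T' ∈ layer T P, Phi h d T' := by
  have hd : 0 ≤ d := hr.trans hrd
  have e : ∀ S : Finset X, h S * r ^ (S \ P).card
      ≤ ∑ T' ∈ layer T P, if T' ⊆ S then h S * d ^ (S \ T').card else 0 := by
    intro S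
    have hnn : ∀ T' ∈ layer T P, (0:ℝ) ≤ if T' ⊆ S then h S * d ^ (S \ T').card else 0 := by
      intro T' _
      split_ifs
      · exact mul_nonneg (h0 S) (pow_nonneg hd _)
      · rfl
    by_cases hS : h S = 0
    · simp [hS]
    · refine le_trans ?_ (single_le_sum hnn
        (mem_layer.2 ⟨inter_subset_right, (card_le_card inter_subset_left).trans (hT S hS)⟩ :
          S ∩ P ∈ layer T P))
      rw [if_pos inter_subset_left, show S \ (S ∩ P) = S \ P by ext; simp]
      exact mul_le_mul_of_nonneg_left (pow_le_pow_left₀ hr hrd _) (h0 S)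
  refine (sum_le_sum fun S _ => e S).trans ?_
  rw [sum_comm]
  rfl

/-- If `S ⊄ P` the cost gains the factor `ρ`. -/
lemma split_new {h : Finset X → ℝ} {r d ρ : ℝ} {T : ℕ} (h0 : ∀ S, 0 ≤ h S) (hr : 0 ≤ r)
    (hd : 0 ≤ d) (hρ : 0 ≤ ρ) (hρ1 : ρ ≤ 1) (hrd : r ≤ ρ * d)
    (hT : ∀ S, h S ≠ 0 → S.card ≤ T) (P : Finset X) :
    ∑ S : Finset X, (if S ⊆ P then 0 else h S * r ^ (S \ P).card)
      ≤ ρ * ∑ T' ∈ layer T P, Phi h d T' := by
  refine le_trans ?_ (mul_le_mul_of_nonneg_left (split_le h0 hd le_rfl hT P) hρ)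
  rw [mul_sum]
  refine sum_le_sum fun S _ => ?_
  split_ifs with hS
  · exact mul_nonneg hρ (mul_nonneg (h0 S) (pow_nonneg hd _))
  · calc h S * r ^ (S \ P).card ≤ h S * (ρ * d) ^ (S \ P).card :=
          mul_le_mul_of_nonneg_left (pow_le_pow_left₀ hr hrd _) (h0 S)
      _ = h S * (ρ ^ (S \ P).card * d ^ (S \ P).card) := by rw [mul_pow]
      _ ≤ h S * (ρ * d ^ (S \ P).card) := by
          refine mul_le_mul_of_nonneg_left (mul_le_mul_of_nonneg_right ?_ (pow_nonneg hd _)) (h0 S)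
          refine pow_le_of_le_one hρ hρ1 ?_
          exact (card_pos.2 (sdiff_nonempty.2 hS)).ne'
      _ = ρ * (h S * d ^ (S \ P).card) := by ring

/-- All proper link sums inside `H` are at most `2 ^ T`. -/
def Light (g : Finset X → ℝ) (a : ℝ) (T : ℕ) (H : Finset X) : Prop :=
  ∀ t, 1 ≤ t → t < T → ∑ T' ∈ H.powersetCard t, Phi g a T' ≤ 2 ^ T

lemma Light.mono {g : Finset X → ℝ} {a : ℝ} {T : ℕ} {A H : Finset X} (hg : ∀ S, 0 ≤ g S)
    (ha : 0 ≤ a) (h : Light g a T H) (hA : A ⊆ H) : Light g a T A := fun t h1 h2 =>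
  (sum_le_sum_of_subset_of_nonneg (powersetCard_mono hA) fun T' _ _ => Phi_nonneg hg ha T').trans
    (h t h1 h2)

/-- Standing hypotheses on the certificates of size `T`. -/
structure Sys (g : Finset X → ℝ) (a : ℝ) (T : ℕ) : Prop where
  nonneg : ∀ S, 0 ≤ g S
  le_one : ∀ S, g S ≤ 1
  card_eq : ∀ S, g S ≠ 0 → S.card = T
  dens : 0 ≤ a
  small : ∑ S : Finset X, g S * a ^ S.card ≤ 1

lemma Sys.card_le {g : Finset X → ℝ} {a : ℝ} {T : ℕ} (hs : Sys g a T) :
    ∀ S, g S ≠ 0 → S.card ≤ T := fun S h => (hs.card_eq S h).le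

lemma Sys.Phi_le {g : Finset X → ℝ} {a : ℝ} {T : ℕ} (hs : Sys g a T) {A T' : Finset X}
    (hA : Light g a T A) (hT' : T' ⊆ A) : Phi g a T' ≤ 2 ^ T := by
  have h1 : (1 : ℝ) ≤ 2 ^ T := one_le_pow₀ (by norm_num)
  rcases T'.eq_empty_or_nonempty with rfl | hne
  · rw [Phi_empty]; exact hs.small.trans h1
  by_cases hlt : T'.card < T
  · exact le_trans (single_le_sum (fun U _ => Phi_nonneg hs.nonneg hs.dens U)
      (mem_powersetCard.2 ⟨hT', rfl⟩)) (hA _ hne.card_pos hlt)
  · refine le_trans ?_ ((hs.le_one T').trans h1)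
    rw [Phi, sum_eq_single T']
    · simp
    · intro S _ hS
      split_ifs with h
      · have : g S = 0 := by
          by_contra h0
          exact hS (eq_of_subset_of_card_le h (by rw [hs.card_eq S h0]; omega)).symm
        simp [this]
      · rfl
    · simp

lemma Sys.layer_sum {g : Finset X → ℝ} {a c : ℝ} {T : ℕ} (hs : Sys g a T) (hc : 1 ≤ c)
    {A P : Finset X} (hA : Light g a T A) (hP : P ⊆ A) :
    ∑ T' ∈ layer T P, Phi g (c * a) T' ≤ ((P.card : ℝ) + 1) ^ T * (2 * c) ^ T := by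
  calc ∑ T' ∈ layer T P, Phi g (c * a) T' ≤ ∑ _T' ∈ layer T P, (2 * c) ^ T := by
        refine sum_le_sum fun T' hT' => (Phi_scale hs.nonneg hs.dens hc hs.card_le T').trans ?_
        rw [mul_pow 2 c, mul_comm ((2:ℝ) ^ T)]
        exact mul_le_mul_of_nonneg_left (hs.Phi_le hA ((mem_layer.1 hT').1.trans hP))
          (pow_nonneg (by linarith) _)
    _ ≤ _ := by
        rw [sum_const, nsmul_eq_mul]
        refine mul_le_mul_of_nonneg_right ?_ (pow_nonneg (by linarith) _)
        exact_mod_cast card_layer T P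

omit [Fintype X] in
/-- A union of a family is the union of at most as many members as it has elements. -/
lemma small_subfamily (F : Finset (Finset X)) :
    ∃ F' ⊆ F, F'.card ≤ (F.biUnion id).card ∧ F'.biUnion id = F.biUnion id := by
  classical
  have hx : ∀ x ∈ F.biUnion id, ∃ S ∈ F, x ∈ S := fun x hx => by simpa using hx
  choose f hf1 hf2 using hx
  refine ⟨(F.biUnion id).attach.image (fun x => f x.1 x.2), ?_,
    card_image_le.trans (le_of_eq (card_attach)), ?_⟩
  · intro S hS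
    obtain ⟨x, _, rfl⟩ := mem_image.1 hS
    exact hf1 x.1 x.2
  · refine subset_antisymm (biUnion_subset_biUnion_of_subset_left _ ?_) ?_
    · intro S hS
      obtain ⟨x, _, rfl⟩ := mem_image.1 hS
      exact hf1 x.1 x.2
    · intro x hx
      exact mem_biUnion.2 ⟨f x hx, mem_image.2 ⟨⟨x, hx⟩, mem_attach _ _, rfl⟩, hf2 x hx⟩

end Vale.Agent.P034.Full
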